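import Vale.Agent.P167.N.MIX.RatS

/-!
# P167, `q < 1`: ratio mixing at a free boundary of simple shape

`D` is a finite set of squares which is, in the annulus `(x, r, R)`, the intersection or the union of
two coordinate half planes, and the configuration outside of `D` is closed in the box `(x, R)`.
-/

namespace Vale.Agent.P167.N.H192.Q

open Finset Relation Vale.Agent.P167.FK Vale.Agent.P167.FKA Vale.Agent.P167.H635
open Vale.Agent.P167.N.MIX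
open Vale.Agent.P167.H259 (f_markov)
open Vale.Agent.P167.H192.Q (Fr Wr sq1 sq1_inj mem_im im_Bq loc_du ind_du trace_du fr_eta0)

variable {Q : ℝ} {x : ℤ × ℤ} {r ρ R : ℤ} {A V V' : Finset (ℤ × ℤ)} {F G : Cfg → ℝ} {ξ ξ' : Cfg}
  {p : ℝ}

theorem scale_le {L : ℤ} (hL : RatS Q L) (hr : 1 ≤ r) (hR : L * (L * r) ≤ R) :
    r ≤ L * r ∧ L * r ≤ R := by
  have h2 := hL.two
  have h3 : r ≤ L * r := by nlinarith
  have h4 : L * r ≤ L * (L * r) := by nlinarith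
  exact ⟨h3, h4.trans hR⟩

theorem ex_arm_bdy (hQ : Kit Q) (hp : ArmAt Q x r R A p) (hξ : Good ξ) (hfr : Fr x R A ξ)
    (hF0 : ∀ ω, 0 ≤ F ω) (hF : Ind (A ∩ (Bq x R \ Bq x r)) F) :
    Ex Q A ξ (fun ω => F ω * {ω | ArmPx x r R ω}.indicator 1 ω) ≤ p * Ex Q A ξ F :=
  hp.ex hQ.pos hξ (fun v hv hvA => hfr v (ann_box hv) hvA) hF0 hF

/-- Arms of the annulus `(r, L r)`. -/
theorem pr_rat (hQ : Kit Q) {L : ℤ} (hL : RatS Q L) (hr : 1 ≤ r) (hR : L * r ≤ R) :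
    Pr Q (Bq x R \ Bq x r) eta1 {ω | ArmPx x r R ω} ≤ 1 / 2 := by
  have h := (hL.rat x r R (Bq x R \ Bq x r) eta1 (fun _ => 1) hr hR f_good.2.2 subset_rfl
    (fun _ => zero_le_one) fun _ _ _ => rfl).1
  simp only [one_mul] at h
  rw [Ex_const hQ.pos, mul_one] at h
  exact h

section Pt

variable {D D' : Finset (ℤ × ℤ)} {η η' : Cfg}

theorem fr_cl (h : Fr x R D η) : Cl (Bq x R) D η := h

/-- **Ratio mixing at a free boundary** for the domain `A`, any constant. -/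
theorem bdy_pair (hQ : Kit Q) (hrR : r ≤ R) (hp : ArmAt Q x r R A p) (hp1 : p < 1) (hVA : V ⊆ A)
    (hV : V ⊆ Bq x r) (hF0 : ∀ ω, 0 ≤ F ω) (hFV : Loc V F) (hξ : Good ξ) (hξ' : Good ξ')
    (hfr : Fr x R A ξ) (hfr' : Fr x R A ξ') : (1 - p) ^ 2 * Ex Q A ξ F ≤ Ex Q A ξ' F :=
  bdy_two hQ.pos hQ.le hrR hp hp1 rfl hVA hV hF0 hFV hξ hξ' hfr hfr'

end Pt

section Main

variable {L : ℤ} {D D' : Finset (ℤ × ℤ)} {η η' : Cfg}

theorem le_free (hQ : Kit Q) (hL : RatS Q L) (hr : 1 ≤ r) (hR : L * r ≤ R) (hVA : V ⊆ A)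
    (hV : V ⊆ Bq x r) (hF0 : ∀ ω, 0 ≤ F ω) (hFV : Loc V F) (hξ : Good ξ) (hfr : Fr x R A ξ)
    (hS : Shp A x r R) : Ex Q A ξ F ≤ 4 * Ex Q A eta0 F := by
  have hrR : r ≤ R := by have := hL.two; nlinarith
  have h := bdy_pair hQ hrR (hL.shp x r R A hr hR hS) (by norm_num) hVA hV hF0 hFV hξ f_good.2.1
    hfr fr_eta0
  norm_num at h
  linarith

theorem free_le (hQ : Kit Q) (hL : RatS Q L) (hr : 1 ≤ r) (hR : L * r ≤ R) (hVA : V ⊆ A)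
    (hV : V ⊆ Bq x r) (hF0 : ∀ ω, 0 ≤ F ω) (hFV : Loc V F) (hξ : Good ξ) (hfr : Fr x R A ξ)
    (hS : Shp A x r R) : Ex Q A eta0 F ≤ 4 * Ex Q A ξ F := by
  have hrR : r ≤ R := by have := hL.two; nlinarith
  have h := bdy_pair hQ hrR (hL.shp x r R A hr hR hS) (by norm_num) hVA hV hF0 hFV f_good.2.1 hξ
    fr_eta0 hfr
  norm_num at h
  linarith

/-- **Ratio mixing at a free boundary**: two boundary conditions. -/
theorem rat_bdy (hQ : Kit Q) (hL : RatS Q L) (hr : 1 ≤ r) (hR : L * (L * r) ≤ R) (hVA : V ⊆ A)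
    (hV : V ⊆ Bq x r) (hF0 : ∀ ω, 0 ≤ F ω) (hFV : Loc V F) (hξ : Good ξ) (hξ' : Good ξ')
    (hfr : Fr x R A ξ) (hfr' : Fr x R A ξ') (hS : Shp A x r R) :
    Ex Q A ξ F ≤ 8 * Ex Q A ξ' F := by
  obtain ⟨s1, s2⟩ := scale_le hL hr hR
  have h := bdy_pair hQ (s1.trans s2) (hL.shp x r R A hr s2 hS) (by norm_num) hVA hV hF0 hFV
    hξ hξ' hfr hfr'
  have h1 : 0 ≤ Ex Q A ξ' F := Ex_nonneg hQ.pos fun _ _ => hF0 _
  norm_num at h
  linarith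

/-- The free measure of the part of the domain in the box. -/
theorem dom_le (hQ : Kit Q) (hL : RatS Q L) (hr : 1 ≤ r) (hR : L * (L * r) ≤ R) (hVD : V ⊆ D)
    (hV : V ⊆ Bq x r) (hF0 : ∀ ω, 0 ≤ F ω) (hFV : Loc V F) (hη : Good η) (hfr : Fr x R D η)
    (hS : Shp D x r R) :
    Ex Q D η F ≤ 2 * Ex Q (D ∩ Bq x R) eta0 F ∧ Ex Q (D ∩ Bq x R) eta0 F ≤ 4 * Ex Q D η F := by
  obtain ⟨s1, s2⟩ := scale_le hL hr hR
  have hp := hL.quarter hQ.pos hr hR hS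
  have hDD : D ∩ Bq x R = (D ∩ Bq x R) ∩ Bq x R := by
    rw [Finset.inter_assoc, Finset.inter_self]
  have hp' : ArmAt Q x r R (D ∩ Bq x R) (1 / 4) := hp.congr (trace_ann D hDD)
  have hVD' := sub_trace (s1.trans s2) hDD hVD hV
  have h1 := bdy_two hQ.pos hQ.le (s1.trans s2) hp (by norm_num) hDD hVD hV hF0 hFV hη f_good.2.1
    hfr (fun _ _ _ => rfl : Cl (Bq x R) (D ∩ Bq x R) eta0)
  have h2 := bdy_two hQ.pos hQ.le (s1.trans s2) hp' (by norm_num) hDD.symm hVD' hV hF0 hFV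
    f_good.2.1 hη (fun _ _ _ => rfl : Cl (Bq x R) (D ∩ Bq x R) eta0) hfr
  have n1 : 0 ≤ Ex Q D η F := Ex_nonneg hQ.pos fun _ _ => hF0 _
  have n2 : 0 ≤ Ex Q (D ∩ Bq x R) eta0 F := Ex_nonneg hQ.pos fun _ _ => hF0 _
  norm_num at h1 h2
  constructor <;> linarith

/-- **Ratio mixing at a free boundary**: two domains with the same trace on the box `(x, R)`. -/
theorem rat_bdy_dom (hQ : Kit Q) (hL : RatS Q L) (hr : 1 ≤ r) (hR : L * (L * r) ≤ R)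
    (hDD : D ∩ Bq x R = D' ∩ Bq x R) (hVD : V ⊆ D)
    (hV : V ⊆ Bq x r) (hF0 : ∀ ω, 0 ≤ F ω) (hFV : Loc V F) (hη : Good η) (hη' : Good η')
    (hfr : Fr x R D η) (hfr' : Fr x R D' η') (hS : Shp D x r R) :
    Ex Q D η F ≤ 8 * Ex Q D' η' F := by
  obtain ⟨s1, s2⟩ := scale_le hL hr hR
  have h := bdy_two hQ.pos hQ.le (s1.trans s2) (hL.shp x r R D hr s2 hS) (by norm_num) hDD hVD hV
    hF0 hFV hη hη' hfr hfr'
  have h1 : 0 ≤ Ex Q D' η' F := Ex_nonneg hQ.pos fun _ _ => hF0 _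
  norm_num at h
  linarith

/-- **Quasi-independence at a free boundary**: a nonnegative function off the box times a nonnegative
local function. -/
theorem rat_bdy_mul (hQ : Kit Q) (hL : RatS Q L) (hr : 1 ≤ r) (hR : L * (L * r) ≤ R)
    (hDD : D ∩ Bq x R = D' ∩ Bq x R) (hVD : V ⊆ D)
    (hV : V ⊆ Bq x r) (hF0 : ∀ ω, 0 ≤ F ω) (hFV : Loc V F) (hη : Good η) (hη' : Good η')
    (hfr : Fr x R D η) (hfr' : Fr x R D' η') (hG0 : ∀ ω, 0 ≤ G ω) (hG : Ind (D ∩ Bq x R) G)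
    (hS : Shp D x r R) :
    Ex Q D η (fun ω => G ω * F ω) ≤ 8 * (Ex Q D η G * Ex Q D' η' F) ∧
      Ex Q D η G * Ex Q D' η' F ≤ 8 * Ex Q D η (fun ω => G ω * F ω) := by
  obtain ⟨s1, s2⟩ := scale_le hL hr hR
  have h := bdy_two_mul hQ.pos hQ.le (s1.trans s2) (hL.shp x r R D hr s2 hS) (by norm_num) hDD hVD
    hV hF0 hFV hη hη' hfr hfr' hG0 hG
  have h1 : 0 ≤ Ex Q D η G * Ex Q D' η' F :=
    mul_nonneg (Ex_nonneg hQ.pos fun _ _ => hG0 _) (Ex_nonneg hQ.pos fun _ _ => hF0 _)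
  have h2 : 0 ≤ Ex Q D η (fun ω => G ω * F ω) :=
    Ex_nonneg hQ.pos fun _ _ => mul_nonneg (hG0 _) (hF0 _)
  norm_num at h
  constructor <;> linarith [h.1, h.2]

theorem ex_du (hQ : Kit Q) (hη : Good η) (F : Cfg → ℝ) :
    Ex Q D η F = Ex Q (D.image sq1) (du η) (fun ω => F (H519.dui ω)) :=
  H519.Ex_du hQ.pos D hη F

/-- **Ratio mixing at a wired boundary**: two domains with the same trace on the box `(x, R)`. -/
theorem rat_bdy_dom_w (hQ : Kit Q) (hL : RatS Q L) (hr : 1 ≤ r) (hR : L * (L * r) ≤ R)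
    (hDD : D ∩ Bq x R = D' ∩ Bq x R) (hVD : V ⊆ D)
    (hV : V ⊆ Bq x r) (hF0 : ∀ ω, 0 ≤ F ω) (hFV : Loc V F) (hη : Good η) (hη' : Good η')
    (hfr : Wr x R D η) (hfr' : Wr x R D' η') (hS : Shp D x r R) :
    Ex Q D η F ≤ 8 * Ex Q D' η' F := by
  rw [ex_du hQ hη F, ex_du hQ hη' F]
  exact rat_bdy_dom hQ hL hr hR (trace_du hDD) (Finset.image_subset_image hVD)
    (by rw [← im_Bq]; exact Finset.image_subset_image hV) (fun _ => hF0 _) (loc_du hFV)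
    (f_dual.1 _ hη) (f_dual.1 _ hη') hfr.du hfr'.du (shp_du hS)

/-- **Quasi-independence at a wired boundary**. -/
theorem rat_bdy_mul_w (hQ : Kit Q) (hL : RatS Q L) (hr : 1 ≤ r) (hR : L * (L * r) ≤ R)
    (hDD : D ∩ Bq x R = D' ∩ Bq x R) (hVD : V ⊆ D)
    (hV : V ⊆ Bq x r) (hF0 : ∀ ω, 0 ≤ F ω) (hFV : Loc V F) (hη : Good η) (hη' : Good η')
    (hfr : Wr x R D η) (hfr' : Wr x R D' η') (hG0 : ∀ ω, 0 ≤ G ω) (hG : Ind (D ∩ Bq x R) G)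
    (hS : Shp D x r R) :
    Ex Q D η (fun ω => G ω * F ω) ≤ 8 * (Ex Q D η G * Ex Q D' η' F) ∧
      Ex Q D η G * Ex Q D' η' F ≤ 8 * Ex Q D η (fun ω => G ω * F ω) := by
  rw [ex_du hQ hη (fun ω => G ω * F ω), ex_du hQ hη' F, ex_du hQ hη G]
  exact rat_bdy_mul hQ hL hr hR (trace_du hDD) (Finset.image_subset_image hVD)
    (by rw [← im_Bq]; exact Finset.image_subset_image hV) (fun _ => hF0 _) (loc_du hFV)
    (f_dual.1 _ hη) (f_dual.1 _ hη') hfr.du hfr'.du (fun _ => hG0 _)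
    (by rw [← im_Bq, ← Finset.image_inter _ _ sq1_inj]; exact ind_du hG) (shp_du hS)

end Main

/-! ### The rate -/

/-- Arms, with the rate. -/
theorem pr_dec (hQ : Kit Q) {α C : ℝ} (h : ArmDec Q α C) (hr : 1 ≤ r) (hrR : r ≤ R) :
    Pr Q (Bq x R \ Bq x r) eta1 {ω | ArmPx x r R ω} ≤ C * ((r : ℝ) / R) ^ α := by
  have h1 := h x r R (Bq x R \ Bq x r) eta1 (fun _ => 1) hr hrR f_good.2.2 subset_rfl
    (fun _ => zero_le_one) fun _ _ _ => rfl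
  simp only [one_mul] at h1
  rw [Ex_const hQ.pos, mul_one] at h1
  exact h1

/-- The elementary inequalities of the rate. -/
theorem rate_aux {a b p : ℝ} (ha : 0 ≤ a) (hb : 0 ≤ b) (hp0 : 0 ≤ p) (h4 : a ≤ 4 * b)
    (h1 : (1 - p) ^ 2 * a ≤ b) (h2 : (1 - p) ^ 2 * b ≤ a) : |a - b| ≤ 6 * p * b := by
  rw [abs_le]
  by_cases hp : p ≤ 1 / 2
  · constructor
    · -- `b - a ≤ (1 - (1 - p)^2) b ≤ 2 p b`
      nlinarith [mul_nonneg hp0 hb, mul_nonneg (mul_nonneg hp0 hp0) hb]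
    · -- `a - b ≤ (1 - (1 - p)^2) a ≤ 2 p a - p^2 a` and `(1 - p)^2 a ≤ b`
      have h5 : (1 - p) ^ 2 * (1 + 6 * p) ≥ 1 := by
        have e : (1 - p) ^ 2 * (1 + 6 * p) - 1 = p * (4 - 11 * p + 6 * p ^ 2) := by ring
        have h6 : 0 ≤ 4 - 11 * p + 6 * p ^ 2 := by nlinarith
        nlinarith [mul_nonneg hp0 h6]
      have h7 : (1 - p) ^ 2 * a * (1 + 6 * p) ≤ b * (1 + 6 * p) :=
        mul_le_mul_of_nonneg_right h1 (by linarith)
      nlinarith [mul_le_mul_of_nonneg_right h5 ha]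
  · push Not at hp
    constructor <;> nlinarith

/-- **Ratio mixing at a free boundary, with a rate.** -/
theorem mix_two (hQ : Kit Q) {α C : ℝ} (h : ArmShp Q α C) {L : ℤ}
    (hL : RatS Q L) (hr : 1 ≤ r) (hrR : L * r ≤ R) {D D' : Finset (ℤ × ℤ)} {η η' : Cfg}
    (hDD : D ∩ Bq x R = D' ∩ Bq x R) (hVD : V ⊆ D) (hV : V ⊆ Bq x r)
    (hF0 : ∀ ω, 0 ≤ F ω) (hFV : Loc V F) (hη : Good η) (hη' : Good η') (hfr : Fr x R D η)
    (hfr' : Fr x R D' η') (hS : Shp D x r R) :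
    |Ex Q D η F - Ex Q D' η' F| ≤ 6 * (C * ((r : ℝ) / R) ^ α) * Ex Q D' η' F := by
  have hrR1 : r ≤ R := by have := hL.two; nlinarith
  have hp := h x r R D hr hrR1 hS
  have hq := hL.shp x r R D hr hrR hS
  have hVD' := sub_trace hrR1 hDD hVD hV
  have n1 : 0 ≤ Ex Q D η F := Ex_nonneg hQ.pos fun _ _ => hF0 _
  have n2 : 0 ≤ Ex Q D' η' F := Ex_nonneg hQ.pos fun _ _ => hF0 _
  have h4 := bdy_two hQ.pos hQ.le hrR1 hq (by norm_num) hDD hVD hV hF0 hFV hη hη' hfr hfr'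
  have h5 := bdy_two hQ.pos hQ.le hrR1 (hq.congr (trace_ann D hDD)) (by norm_num) hDD.symm hVD' hV
    hF0 hFV hη' hη hfr' hfr
  norm_num at h4 h5
  set p := C * ((r : ℝ) / R) ^ α with hpd
  have hp0 : 0 ≤ p := hp.nonneg hQ.pos
  by_cases hp1 : p < 1
  · have h1 := bdy_two hQ.pos hQ.le hrR1 hp hp1 hDD hVD hV hF0 hFV hη hη' hfr hfr'
    have h2 := bdy_two hQ.pos hQ.le hrR1 (hp.congr (trace_ann D hDD)) hp1 hDD.symm hVD' hV
      hF0 hFV hη' hη hfr' hfr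
    exact rate_aux n1 n2 hp0 (by linarith) h1 h2
  · push Not at hp1
    rw [abs_le]
    constructor <;> nlinarith

/-- **Ratio mixing at a free boundary, with a rate**: the free boundary condition. -/
theorem mix_bdy (hQ : Kit Q) {α C : ℝ} (h : ArmShp Q α C) {L : ℤ}
    (hL : RatS Q L) (hr : 1 ≤ r) (hrR : L * r ≤ R) (hVA : V ⊆ A) (hV : V ⊆ Bq x r)
    (hF0 : ∀ ω, 0 ≤ F ω) (hFV : Loc V F) (hξ : Good ξ) (hfr : Fr x R A ξ) (hS : Shp A x r R) :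
    |Ex Q A ξ F - Ex Q A eta0 F| ≤ 6 * (C * ((r : ℝ) / R) ^ α) * Ex Q A eta0 F :=
  mix_two hQ h hL hr hrR rfl hVA hV hF0 hFV hξ f_good.2.1 hfr fr_eta0 hS

end Vale.Agent.P167.N.H192.Q
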