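import Vale.Agent.P167.H262.R0
import Vale.Agent.P167.H192.Q.Fresh

/-!
# P167, `0 < Q ≤ 1`: crossings of the colour `c` with rough walls (the two colours at once)

`CC c E A B`: a path of squares of `E` of the colour `c` joins `A` and `B`. `rough_c`: the worst
configuration outside is the one of the colour `c`, and frozen squares inside `A'` or inside `B'` only
increase the probability.
-/

set_option autoImplicit false

namespace Vale.Agent.P167.N.H192.Q

open Finset Relation Vale.Agent.P167 Vale.Agent.P167.FK Vale.Agent.P167.FKA Vale.Agent.P167.H192.TA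
  Vale.Agent.P167.H632 Vale.Agent.P167.H262 Vale.Agent.P167.H192.Q
open Vale.Agent.P145.FB (PStep PConn)
open Vale.Agent.P167.H816 (even_pa even_pb odd_da odd_db)

variable {Q : ℝ} {D S L E : Finset (ℤ × ℤ)} {η : Cfg} {A B A' B' : Set (ℤ × ℤ)} {c : Bool}

/-- `A` and `B` are joined by squares of `E` of the colour `c`. -/
def CC (c : Bool) (E : Finset (ℤ × ℤ)) (A B : Set (ℤ × ℤ)) : Set Cfg :=
  {ω | ∃ u ∈ A, ∃ v ∈ B, Pw (cs c ω ∩ ↑E) u v}

theorem CC_true : CC true E A B = CI E A B := rfl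

theorem CC_false : CC false E A B = CD E A B := by
  unfold CC CD
  simp only [cs_false]

/-- The sites of the colour `c` at the boundary of `E`. -/
def Bs (c : Bool) (E : Finset (ℤ × ℤ)) : Set (ℤ × ℤ) :=
  {s | (s.1 + s.2) % 2 = pr c ∧ ∃ v, v ∉ E ∧ Cor v s}

theorem even_iff_pr {s : ℤ × ℤ} : Even (s.1 + s.2) ↔ (s.1 + s.2) % 2 = pr true := by
  rw [Int.even_iff]; rfl

theorem odd_iff_pr {s : ℤ × ℤ} : Odd (s.1 + s.2) ↔ (s.1 + s.2) % 2 = pr false := by
  rw [Int.odd_iff]; rfl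

theorem cor_even {v s : ℤ × ℤ} (h : Cor v s) (he : Even (s.1 + s.2)) : s = pa v ∨ s = pb v := by
  unfold Cor at h
  rw [Int.even_iff] at he
  unfold pa pb
  by_cases hv : Even (v.1 + v.2)
  · rw [if_pos hv, if_pos hv]
    rw [Int.even_iff] at hv
    rcases h with ⟨h1 | h1, h2 | h2⟩
    · left; exact Prod.ext h1 h2
    · omega
    · omega
    · right; exact Prod.ext h1 h2
  · rw [if_neg hv, if_neg hv]
    rw [Int.even_iff] at hv
    rcases h with ⟨h1 | h1, h2 | h2⟩
    · omega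
    · left; exact Prod.ext h1 h2
    · right; exact Prod.ext h1 h2
    · omega

theorem cor_odd {v s : ℤ × ℤ} (h : Cor v s) (he : Odd (s.1 + s.2)) : s = da v ∨ s = db v := by
  unfold Cor at h
  rw [Int.odd_iff] at he
  unfold da db
  by_cases hv : Even (v.1 + v.2)
  · rw [if_pos hv, if_pos hv]
    rw [Int.even_iff] at hv
    rcases h with ⟨h1 | h1, h2 | h2⟩
    · omega
    · left; exact Prod.ext h1 h2
    · right; exact Prod.ext h1 h2
    · omega
  · rw [if_neg hv, if_neg hv]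
    rw [Int.even_iff] at hv
    rcases h with ⟨h1 | h1, h2 | h2⟩
    · left; exact Prod.ext h1 h2
    · omega
    · omega
    · right; exact Prod.ext h1 h2

theorem Bs_true : Bs true E = Pb E := by
  ext s
  constructor
  · rintro ⟨h1, v, hv, h2⟩
    exact ⟨v, hv, cor_even h2 (even_iff_pr.2 h1)⟩
  · rintro ⟨v, hv, h⟩
    rcases h with rfl | rfl
    · exact ⟨even_iff_pr.1 (even_pa v), v, hv, (cor_pa v).1⟩
    · exact ⟨even_iff_pr.1 (even_pb v), v, hv, (cor_pb v).1⟩

theorem cor_da (v : ℤ × ℤ) : Cor v (da v) := by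
  unfold Cor da
  split_ifs <;> simp

theorem cor_db (v : ℤ × ℤ) : Cor v (db v) := by
  unfold Cor db
  split_ifs <;> simp

theorem Bs_false : Bs false E = Db E := by
  ext s
  constructor
  · rintro ⟨h1, v, hv, h2⟩
    exact ⟨v, hv, cor_odd h2 (odd_iff_pr.2 h1)⟩
  · rintro ⟨v, hv, h⟩
    rcases h with rfl | rfl
    · exact ⟨odd_iff_pr.1 (odd_da v), v, hv, cor_da v⟩
    · exact ⟨odd_iff_pr.1 (odd_db v), v, hv, cor_db v⟩

/-- **Crossings with rough walls**, colour `c`. -/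
theorem rough_c (hQ : 0 < Q) (hQ1 : Q ≤ 1) (hη : Good η)
    (hZ : ∀ s ∈ Bs c S, ∀ t ∈ Bs c S, Pw (↑S)ᶜ s t) (hA : A ⊆ Bs c S) (hB : B ⊆ Bs c S)
    (hAA : A ⊆ A') (hBB : B ⊆ B')
    (hL : ∀ e ∈ L, e ∈ S → (∀ x, Cor e x → (x.1 + x.2) % 2 = pr c → x ∈ A') ∨
      (∀ x, Cor e x → (x.1 + x.2) % 2 = pr c → x ∈ B')) (hD : S \ L ⊆ D) :
    Pr Q S (etac c) (CC c S A B) ≤ Pr Q D η (CC c (S \ L) A' B') := by
  cases c
  · rw [CC_false, CC_false]
    rw [Bs_false] at hZ hA hB
    refine rough_D hQ hQ1 hη (good_etac false) (fun s hs t ht _ _ => ?_) hA hB hAA hBB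
      (fun e he heS => ?_) hD
    · refine (hZ s hs t ht).mono ?_
      intro v hv
      show ¬ cf S (etac false) S v = true
      rw [FKA.cf_out (fun h => hv (Finset.mem_coe.2 h))]
      simp [etac]
    · rcases hL e he heS with h | h
      · exact Or.inl ⟨h _ (cor_da e) (odd_iff_pr.1 (odd_da e)), h _ (cor_db e)
          (odd_iff_pr.1 (odd_db e))⟩
      · exact Or.inr ⟨h _ (cor_da e) (odd_iff_pr.1 (odd_da e)), h _ (cor_db e)
          (odd_iff_pr.1 (odd_db e))⟩
  · rw [CC_true, CC_true]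
    rw [Bs_true] at hZ hA hB
    refine rough_P hQ hQ1 hη (good_etac true) (fun s hs t ht _ _ => ?_) hA hB hAA hBB
      (fun e he heS => ?_) hD
    · refine (hZ s hs t ht).mono ?_
      intro v hv
      show cf S (etac true) ∅ v = true
      rw [FKA.cf_out (fun h => hv (Finset.mem_coe.2 h))]
      rfl
    · rcases hL e he heS with h | h
      · exact Or.inl ⟨h _ (cor_pa e).1 (even_iff_pr.1 (even_pa e)), h _ (cor_pb e).1
          (even_iff_pr.1 (even_pb e))⟩
      · exact Or.inr ⟨h _ (cor_pa e).1 (even_iff_pr.1 (even_pa e)), h _ (cor_pb e).1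
          (even_iff_pr.1 (even_pb e))⟩

/-- **The worst configuration outside**, colour `c`. -/
theorem worst_c (hQ : 0 < Q) (hQ1 : Q ≤ 1) (hη : Good η)
    (hZ : ∀ s ∈ Bs c S, ∀ t ∈ Bs c S, Pw (↑S)ᶜ s t) (hA : A ⊆ Bs c S) (hB : B ⊆ Bs c S)
    (hD : S ⊆ D) : Pr Q S (etac c) (CC c S A B) ≤ Pr Q D η (CC c S A B) := by
  have h := rough_c (c := c) (L := ∅) (D := D) hQ hQ1 hη hZ hA hB subset_rfl subset_rfl
    (fun e he => absurd he (Finset.notMem_empty e)) (by rwa [Finset.sdiff_empty])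
  rwa [Finset.sdiff_empty] at h

end Vale.Agent.P167.N.H192.Q
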