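import Vale.Agent.P167.H192.TA.Stage

/-!
# P167: exclusion in the half annulus, interlaced points of the right ray

`xin_r`: a path of one colour from the left ray to the point `y` of the right ray excludes a path of
the other colour from the inner box to a point of the right ray beyond `y`. `xout_r`: it excludes a path
of the other colour from the outer sphere to a point of the right ray before `y`. `xin`, `xout`: both
sides.
-/

set_option autoImplicit false

namespace Vale.Agent.P167.N.H192.Q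

open Vale.Agent.P145.FB Vale.Agent.P153 Vale.Agent.P153.Topo Vale.Agent.P167 Vale.Agent.P167.H871
  Vale.Agent.P167.H632 Vale.Agent.P167.H192.TA
open Relation

/-- From the inner box. -/
theorem xin_r {F : Set Pt} {b : Pt} {r R e : ℤ} (he : e = 0 ∨ e = 1) (hr : 1 ≤ r)
    {x v p y : Pt} (hx : x ∈ sr b r R) (hx2 : x.2 = b.2)
    (hxe : (x.1 + x.2) % 2 = e) (h : Pw (F ∩ dq b r R) x v) (hv : nm (v - b) ≤ r)
    (hp : p ∈ sr b r R) (hp1 : p.1 ≤ b.1 - r) (hp2 : p.2 = b.2) (hpe : (p.1 + p.2) % 2 = 1 - e)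
    (hy1 : b.1 + r ≤ y.1) (hy2 : y.2 = b.2) (hyx : y.1 < x.1)
    (h' : Pw (Fᶜ ∩ dq b r R) p y) : False := by
  have hA := h'.lift hp hpe
  have hB := h.lift hx hxe
  have hvs := h.mem_sr hx
  have hys := h'.mem_sr hp
  rw [nm_le] at hv
  simp only [Prod.fst_sub, Prod.snd_sub] at hv
  obtain ⟨a, ha⟩ : ∃ a : ℤ, a = 2 * (b.1 - R) - 2 := ⟨_, rfl⟩
  obtain ⟨c, hc⟩ : ∃ c : ℤ, c = 2 * (b.1 + R) + 2 := ⟨_, rfl⟩
  obtain ⟨A', hA'⟩ : ∃ A' : Set Pt, A' = (Sc (1 - e) Fᶜ ∩ Zs b r R) ∪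
      ({z | z.2 = 2 * b.2 - 1 ∧ a ≤ z.1 ∧ z.1 ≤ 2 * p.1} ∪
      ({z | z.1 = 2 * y.1 ∧ 2 * b.2 - 3 ≤ z.2 ∧ z.2 ≤ 2 * b.2 - 1} ∪
      {z | z.2 = 2 * b.2 - 3 ∧ 2 * y.1 ≤ z.1 ∧ z.1 ≤ c})) := ⟨_, rfl⟩
  obtain ⟨B', hB'⟩ : ∃ B' : Set Pt, B' = (Sc e F ∩ Zs b r R) ∪
      ({z | 2 * (b.1 - r) < z.1 ∧ z.1 < 2 * (b.1 + r) ∧ 2 * b.2 - 4 ≤ z.2 ∧ z.2 < 2 * (b.2 + r)} ∪
      ({z | z.2 = 2 * b.2 - 1 ∧ 2 * x.1 ≤ z.1 ∧ z.1 ≤ c - 1} ∪
      {z | z.1 = c - 1 ∧ 2 * b.2 - 1 ≤ z.2 ∧ z.2 ≤ 2 * (b.2 + R)})) := ⟨_, rfl⟩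
  simp only [sr, Set.mem_ofPred_eq] at hx hvs hp hys
  -- the left-right path
  have c1 : Conn A' (a, 2 * b.2 - 1) (2 * p.1, 2 * b.2 - 1) := by
    refine conn_row fun i hi hi' => ?_
    rw [hA']
    right; left
    simp only [Set.mem_ofPred_eq, true_and]
    omega
  have c2 : Conn A' (2 * y.1, 2 * b.2 - 1) (2 * y.1, 2 * b.2 - 3) := by
    refine conn_col fun i hi hi' => ?_
    rw [hA']
    right; right; left
    simp only [Set.mem_ofPred_eq, true_and]
    omega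
  have c3 : Conn A' (2 * y.1, 2 * b.2 - 3) (c, 2 * b.2 - 3) := by
    refine conn_row fun i hi hi' => ?_
    rw [hA']
    right; right; right
    simp only [Set.mem_ofPred_eq, true_and]
    omega
  have hA1 : Conn A' (2 * p.1, 2 * p.2) (2 * y.1, 2 * y.2) := hA.mono (by
    rw [hA']; exact Set.subset_union_left)
  have cA : Conn A' (a, 2 * b.2 - 1) (c, 2 * b.2 - 3) := by
    refine (c1.tail ?_ hA1.left_mem).trans (hA1.trans ?_)
    · rw [adj_iff]; dsimp only; omega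
    · exact (((Conn.refl hA1.right_mem).tail (by rw [adj_iff]; dsimp only; omega)
        c2.left_mem).trans c2).trans c3
  -- the bottom-top path
  have hB1 : Conn B' (2 * x.1, 2 * x.2) (2 * v.1, 2 * v.2) := hB.mono (by
    rw [hB']; exact Set.subset_union_left)
  have hin : ∀ z : Pt, 2 * (b.1 - r) < z.1 → z.1 < 2 * (b.1 + r) → 2 * b.2 - 4 ≤ z.2 →
      z.2 < 2 * (b.2 + r) → z ∈ B' ∧ Conn B' (2 * b.1, 2 * b.2 - 4) z := by
    intro z h1 h2 h3 h4
    have key : ∀ w : Pt, 2 * (b.1 - r) < w.1 → w.1 < 2 * (b.1 + r) → 2 * b.2 - 4 ≤ w.2 →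
      w.2 < 2 * (b.2 + r) → w ∈ B' := by
      intro w k1 k2 k3 k4
      rw [hB']
      right; left
      exact ⟨k1, k2, k3, k4⟩
    refine ⟨key z h1 h2 h3 h4, ?_⟩
    have e1 : Conn B' (2 * b.1, 2 * b.2 - 4) (z.1, 2 * b.2 - 4) :=
      conn_row fun i hi hi' => key _ (by dsimp only; omega) (by dsimp only; omega)
        (by dsimp only; omega) (by dsimp only; omega)
    have e2 : Conn B' (z.1, 2 * b.2 - 4) (z.1, z.2) :=
      conn_col fun i hi hi' => key _ (by dsimp only; omega) (by dsimp only; omega)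
        (by dsimp only; omega) (by dsimp only; omega)
    exact e1.trans e2
  have cB1 : Conn B' (2 * b.1, 2 * b.2 - 4) (2 * v.1, 2 * v.2) := by
    by_cases k1 : v.1 = b.1 - r
    · by_cases k2 : v.2 = b.2 + r
      · obtain ⟨m, hm⟩ := hin (2 * v.1 + 1, 2 * v.2 - 1) (by dsimp only; omega)
          (by dsimp only; omega) (by dsimp only; omega) (by dsimp only; omega)
        exact hm.tail (by rw [adj_iff]; dsimp only; omega) hB1.right_mem
      · obtain ⟨m, hm⟩ := hin (2 * v.1 + 1, 2 * v.2) (by dsimp only; omega) (by dsimp only; omega)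
          (by dsimp only; omega) (by dsimp only; omega)
        exact hm.tail (by rw [adj_iff]; dsimp only; omega) hB1.right_mem
    · by_cases k2 : v.1 = b.1 + r
      · by_cases k3 : v.2 = b.2 + r
        · obtain ⟨m, hm⟩ := hin (2 * v.1 - 1, 2 * v.2 - 1) (by dsimp only; omega)
            (by dsimp only; omega) (by dsimp only; omega) (by dsimp only; omega)
          have hz : ((2 * v.1 - 1, 2 * v.2) : Pt) ∈ B' := by
            rw [hB']
            left
            have hve : (v.1 + v.2) % 2 = e := by rw [← hxe]; exact h.parity.symm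
            refine ⟨Or.inr ⟨not_ctr_right (a := v.2) rfl, ?_⟩, ?_⟩
            · simp only [st]; omega
            · simp only [Zs, Set.mem_ofPred_eq]; omega
          exact (hm.tail (by rw [adj_iff]; dsimp only; omega) hz).tail
            (by rw [adj_iff]; dsimp only; omega) hB1.right_mem
        · obtain ⟨m, hm⟩ := hin (2 * v.1 - 1, 2 * v.2) (by dsimp only; omega) (by dsimp only; omega)
            (by dsimp only; omega) (by dsimp only; omega)
          exact hm.tail (by rw [adj_iff]; dsimp only; omega) hB1.right_mem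
      · obtain ⟨m, hm⟩ := hin (2 * v.1, 2 * v.2 - 1) (by dsimp only; omega) (by dsimp only; omega)
          (by dsimp only; omega) (by dsimp only; omega)
        exact hm.tail (by rw [adj_iff]; dsimp only; omega) hB1.right_mem
  have cB2 : Conn B' (2 * x.1, 2 * x.2) (c - 1, 2 * (b.2 + R)) := by
    have e1 : Conn B' (2 * x.1, 2 * b.2 - 1) (c - 1, 2 * b.2 - 1) := by
      refine conn_row fun i hi hi' => ?_
      rw [hB']
      right; right; left
      simp only [Set.mem_ofPred_eq, true_and]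
      omega
    have e2 : Conn B' (c - 1, 2 * b.2 - 1) (c - 1, 2 * (b.2 + R)) := by
      refine conn_col fun i hi hi' => ?_
      rw [hB']
      right; right; right
      simp only [Set.mem_ofPred_eq, true_and]
      omega
    exact (((Conn.refl hB1.left_mem).tail (by rw [adj_iff]; dsimp only; omega)
      e1.left_mem).trans e1).trans e2
  have cB := (cB1.trans hB1.symm).trans cB2
  obtain ⟨z, hzA, hzB⟩ := cross (A := A') (B := B') (a := a) (b := c)
    (c := 2 * b.2 - 4) (d := 2 * (b.2 + R)) (by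
      intro z hz
      rw [hA'] at hz
      rcases hz with ⟨-, hz⟩ | hz | hz | hz
      · simp only [Zs, Set.mem_ofPred_eq] at hz; omega
      · simp only [Set.mem_ofPred_eq] at hz; omega
      · simp only [Set.mem_ofPred_eq] at hz; omega
      · simp only [Set.mem_ofPred_eq] at hz; omega) (by
      intro z hz
      rw [hB'] at hz
      rcases hz with ⟨-, hz⟩ | hz | hz | hz
      · simp only [Zs, Set.mem_ofPred_eq] at hz; omega
      · simp only [Set.mem_ofPred_eq] at hz; omega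
      · simp only [Set.mem_ofPred_eq] at hz; omega
      · simp only [Set.mem_ofPred_eq] at hz; omega) cA rfl rfl cB rfl rfl
  rw [hA'] at hzA
  rw [hB'] at hzB
  rcases hzA with ⟨hzA, hzA'⟩ | hzA | hzA | hzA
  · rw [mem_Sc_compl he] at hzA
    rcases hzB with ⟨hzB, -⟩ | hzB | hzB | hzB
    · exact hzA hzB
    · simp only [Zs, Set.mem_ofPred_eq] at hzA' hzB; omega
    · simp only [Zs, Set.mem_ofPred_eq] at hzA' hzB; omega
    · simp only [Zs, Set.mem_ofPred_eq] at hzA' hzB; omega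
  all_goals
    rcases hzB with ⟨-, hzB⟩ | hzB | hzB | hzB <;>
      simp only [Zs, Set.mem_ofPred_eq] at hzA hzB <;> omega

/-- From the outer sphere. -/
theorem xout_r {F : Set Pt} {b : Pt} {r R e : ℤ} (he : e = 0 ∨ e = 1) (hr : 1 ≤ r)
    {x v p y : Pt} (hx : x ∈ sr b r R) (hx2 : x.2 = b.2) (hx1 : b.1 + r ≤ x.1)
    (hxe : (x.1 + x.2) % 2 = e) (h : Pw (F ∩ dq b r R) x v) (hv : R ≤ nm (v - b))
    (hp : p ∈ sr b r R) (hp1 : p.1 ≤ b.1 - r) (hp2 : p.2 = b.2) (hpe : (p.1 + p.2) % 2 = 1 - e)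
    (hy2 : y.2 = b.2) (hyx : x.1 < y.1)
    (h' : Pw (Fᶜ ∩ dq b r R) p y) : False := by
  have hA := h'.lift hp hpe
  have hB := h.lift hx hxe
  have hvs := h.mem_sr hx
  have hys := h'.mem_sr hp
  rw [le_nm] at hv
  simp only [Prod.fst_sub, Prod.snd_sub] at hv
  obtain ⟨a, ha⟩ : ∃ a : ℤ, a = 2 * (b.1 - R) - 2 := ⟨_, rfl⟩
  obtain ⟨c, hc⟩ : ∃ c : ℤ, c = 2 * (b.1 + R) + 2 := ⟨_, rfl⟩
  obtain ⟨A', hA'⟩ : ∃ A' : Set Pt, A' = (Sc (1 - e) Fᶜ ∩ Zs b r R) ∪
      ({z | z.2 = 2 * b.2 - 1 ∧ a ≤ z.1 ∧ z.1 ≤ 2 * p.1} ∪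
      {z | z.2 = 2 * b.2 - 1 ∧ 2 * y.1 ≤ z.1 ∧ z.1 ≤ c}) := ⟨_, rfl⟩
  obtain ⟨B', hB'⟩ : ∃ B' : Set Pt, B' = (Sc e F ∩ Zs b r R) ∪
      ({z | z.1 = 2 * x.1 ∧ 2 * b.2 - 2 ≤ z.2 ∧ z.2 ≤ 2 * b.2 - 1} ∪
      {z | (z.1 = 2 * (b.1 - R) - 1 ∨ z.1 = 2 * (b.1 + R) + 1) ∧ 2 * b.2 ≤ z.2 ∧
        z.2 ≤ 2 * (b.2 + R)}) := ⟨_, rfl⟩
  simp only [sr, Set.mem_ofPred_eq] at hx hvs hp hys
  have c1 : Conn A' (a, 2 * b.2 - 1) (2 * p.1, 2 * b.2 - 1) := by
    refine conn_row fun i hi hi' => ?_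
    rw [hA']
    right; left
    simp only [Set.mem_ofPred_eq, true_and]
    omega
  have c2 : Conn A' (2 * y.1, 2 * b.2 - 1) (c, 2 * b.2 - 1) := by
    refine conn_row fun i hi hi' => ?_
    rw [hA']
    right; right
    simp only [Set.mem_ofPred_eq, true_and]
    omega
  have hA1 : Conn A' (2 * p.1, 2 * p.2) (2 * y.1, 2 * y.2) := hA.mono (by
    rw [hA']; exact Set.subset_union_left)
  have cA : Conn A' (a, 2 * b.2 - 1) (c, 2 * b.2 - 1) := by
    refine (c1.tail ?_ hA1.left_mem).trans (hA1.trans ?_)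
    · rw [adj_iff]; dsimp only; omega
    · exact ((Conn.refl hA1.right_mem).tail (by rw [adj_iff]; dsimp only; omega) c2.left_mem).trans c2
  have hB1 : Conn B' (2 * x.1, 2 * x.2) (2 * v.1, 2 * v.2) := hB.mono (by
    rw [hB']; exact Set.subset_union_left)
  have cB1 : Conn B' (2 * x.1, 2 * b.2 - 2) (2 * x.1, 2 * x.2) := by
    have e1 : Conn B' (2 * x.1, 2 * b.2 - 2) (2 * x.1, 2 * b.2 - 1) := by
      refine conn_col fun i hi hi' => ?_
      rw [hB']
      right; left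
      simp only [Set.mem_ofPred_eq, true_and]
      omega
    exact e1.tail (by rw [adj_iff]; dsimp only; omega) hB1.left_mem
  have cB2 : ∃ z : Pt, z.2 = 2 * (b.2 + R) ∧ Conn B' (2 * v.1, 2 * v.2) z := by
    by_cases k1 : v.2 = b.2 + R
    · exact ⟨_, by dsimp only; omega, Conn.refl hB1.right_mem⟩
    by_cases k2 : v.1 = b.1 - R
    · refine ⟨(2 * v.1 - 1, 2 * (b.2 + R)), rfl, ?_⟩
      have e1 : Conn B' (2 * v.1 - 1, 2 * v.2) (2 * v.1 - 1, 2 * (b.2 + R)) := by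
        refine conn_col fun i hi hi' => ?_
        rw [hB']
        right; right
        simp only [Set.mem_ofPred_eq]
        omega
      exact ((Conn.refl hB1.right_mem).tail (by rw [adj_iff]; dsimp only; omega)
        e1.left_mem).trans e1
    · refine ⟨(2 * v.1 + 1, 2 * (b.2 + R)), rfl, ?_⟩
      have e1 : Conn B' (2 * v.1 + 1, 2 * v.2) (2 * v.1 + 1, 2 * (b.2 + R)) := by
        refine conn_col fun i hi hi' => ?_
        rw [hB']
        right; right
        simp only [Set.mem_ofPred_eq]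
        omega
      exact ((Conn.refl hB1.right_mem).tail (by rw [adj_iff]; dsimp only; omega)
        e1.left_mem).trans e1
  obtain ⟨z1, hz1, k1⟩ := cB2
  have cB := (cB1.trans hB1).trans k1
  obtain ⟨z, hzA, hzB⟩ := cross (A := A') (B := B') (a := a) (b := c)
    (c := 2 * b.2 - 2) (d := 2 * (b.2 + R)) (by
      intro z hz
      rw [hA'] at hz
      rcases hz with ⟨-, hz⟩ | hz | hz
      · simp only [Zs, Set.mem_ofPred_eq] at hz; omega
      · simp only [Set.mem_ofPred_eq] at hz; omega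
      · simp only [Set.mem_ofPred_eq] at hz; omega) (by
      intro z hz
      rw [hB'] at hz
      rcases hz with ⟨-, hz⟩ | hz | hz
      · simp only [Zs, Set.mem_ofPred_eq] at hz; omega
      · simp only [Set.mem_ofPred_eq] at hz; omega
      · simp only [Set.mem_ofPred_eq] at hz; omega) cA rfl rfl cB rfl hz1
  rw [hA'] at hzA
  rw [hB'] at hzB
  rcases hzA with ⟨hzA, hzA'⟩ | hzA | hzA
  · rw [mem_Sc_compl he] at hzA
    rcases hzB with ⟨hzB, -⟩ | hzB | hzB
    · exact hzA hzB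
    · simp only [Zs, Set.mem_ofPred_eq] at hzA' hzB; omega
    · simp only [Zs, Set.mem_ofPred_eq] at hzA' hzB; omega
  all_goals
    rcases hzB with ⟨-, hzB⟩ | hzB | hzB <;>
      simp only [Zs, Set.mem_ofPred_eq] at hzA hzB <;> omega

/-! ### Both sides -/

theorem mr_sr {b w : Pt} {r R : ℤ} (h : w ∈ sr b r R) : mr b w ∈ sr b r R := by
  simp only [sr, mr, Set.mem_ofPred_eq] at h ⊢
  omega

theorem mq_compl (b : Pt) (F : Set Pt) : {w | mq b w ∈ F}ᶜ = {w | mq b w ∈ Fᶜ} := rfl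

theorem xin {F : Set Pt} {b : Pt} {r R e : ℤ} (s : Bool) (he : e = 0 ∨ e = 1) (hr : 1 ≤ r)
    {x v p y : Pt} (hx : x ∈ sr b r R) (hx2 : x.2 = b.2)
    (hxe : (x.1 + x.2) % 2 = e) (h : Pw (F ∩ dq b r R) x v) (hv : nm (v - b) ≤ r)
    (hp : p ∈ sr b r R) (hp1 : 0 < sgn s * (p.1 - b.1)) (hp2 : p.2 = b.2)
    (hpe : (p.1 + p.2) % 2 = 1 - e) (hy1 : 0 < sgn (!s) * (y.1 - b.1)) (hy2 : y.2 = b.2)
    (hyx : sgn (!s) * (y.1 - b.1) < sgn (!s) * (x.1 - b.1))
    (h' : Pw (Fᶜ ∩ dq b r R) p y) : False := by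
  have hys := h'.mem_sr hp
  cases s
  · simp only [sgn, Bool.not_false, if_true, Bool.false_eq_true, if_false] at hp1 hy1 hyx
    have hp' := hp
    simp only [sr, Set.mem_ofPred_eq] at hp' hys
    exact xin_r he hr hx hx2 hxe h hv hp (by omega) hp2 hpe (by omega) hy2 (by omega) h'
  · simp only [sgn, Bool.not_true, if_true, Bool.false_eq_true, if_false] at hp1 hy1 hyx
    have hp' := hp
    simp only [sr, Set.mem_ofPred_eq] at hp' hys
    have k1 := pw_mr (b := b) h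
    have k2 := pw_mr (b := b) h'
    rw [← mq_compl] at k2
    refine xin_r (x := mr b x) (v := mr b v) (p := mr b p) (y := mr b y) he hr (mr_sr hx) hx2 ?_ k1
      (by rw [nm_mr]; exact hv) (mr_sr hp) ?_ hp2 ?_ ?_ hy2 ?_ k2 <;> simp only [mr] <;> omega

theorem xout {F : Set Pt} {b : Pt} {r R e : ℤ} (s : Bool) (he : e = 0 ∨ e = 1) (hr : 1 ≤ r)
    {x v p y : Pt} (hx : x ∈ sr b r R) (hx2 : x.2 = b.2) (hx1 : 0 < sgn (!s) * (x.1 - b.1))
    (hxe : (x.1 + x.2) % 2 = e) (h : Pw (F ∩ dq b r R) x v) (hv : R ≤ nm (v - b))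
    (hp : p ∈ sr b r R) (hp1 : 0 < sgn s * (p.1 - b.1)) (hp2 : p.2 = b.2)
    (hpe : (p.1 + p.2) % 2 = 1 - e) (hy2 : y.2 = b.2)
    (hyx : sgn (!s) * (x.1 - b.1) < sgn (!s) * (y.1 - b.1))
    (h' : Pw (Fᶜ ∩ dq b r R) p y) : False := by
  cases s
  · simp only [sgn, Bool.not_false, if_true, Bool.false_eq_true, if_false] at hp1 hx1 hyx
    have hp' := hp
    have hx' := hx
    simp only [sr, Set.mem_ofPred_eq] at hp' hx'
    exact xout_r he hr hx hx2 (by omega) hxe h hv hp (by omega) hp2 hpe hy2 (by omega) h'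
  · simp only [sgn, Bool.not_true, if_true, Bool.false_eq_true, if_false] at hp1 hx1 hyx
    have hp' := hp
    have hx' := hx
    simp only [sr, Set.mem_ofPred_eq] at hp' hx'
    have k1 := pw_mr (b := b) h
    have k2 := pw_mr (b := b) h'
    rw [← mq_compl] at k2
    refine xout_r (x := mr b x) (v := mr b v) (p := mr b p) (y := mr b y) he hr (mr_sr hx) hx2 ?_ ?_
      k1 (by rw [nm_mr]; exact hv) (mr_sr hp) ?_ hp2 ?_ hy2 ?_ k2 <;> simp only [mr] <;> omega

end Vale.Agent.P167.N.H192.Q
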