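import Vale.Agent.P167.N.H192.Q.PX
import Vale.Agent.P167.N.H192.Q.Xcl

/-!
# P167, `0 < q < 1`: fresh connections of the bank of an explored cluster with the other ray

The cluster of colour `c` of the ray `s` is explored, `O` = revealed squares. `Bank c O`: sites of the
other colour at squares of `O`. `Bk s c O b r R`: squares off `O` of the colour `!c` join the ray `s` or
the bank to the other ray. `bk_ge`: probability at least `1 - pX`, any domain, any configuration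
outside. `det_bk`: two such connections give a path around a part of the other ray.
-/

set_option autoImplicit false

namespace Vale.Agent.P167.N.H192.Q

open Finset Relation Vale.Agent.P167 Vale.Agent.P167.FK Vale.Agent.P167.FKA Vale.Agent.P167.H192.TA
  Vale.Agent.P167.H632 Vale.Agent.P167.H558 Vale.Agent.P167.H871 Vale.Agent.P167.H192.Q
open Vale.Agent.P145.FB (PStep PConn)
open Vale.Agent.P167.H259 (f_markov)

variable {Q : ℝ} {D A E : Finset (ℤ × ℤ)} {η η' : Cfg} {F G : Cfg → ℝ} {c : Bool} {b : ℤ × ℤ}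
  {r R r' R' m1 m2 : ℤ}

/-! ### Connections by squares of a set -/

theorem cc_congr {c : Bool} {E : Finset (ℤ × ℤ)} {A B : Set (ℤ × ℤ)} {ω ω' : Cfg}
    (h : ∀ v ∈ E, ω v = ω' v) (h1 : ω ∈ CC c E A B) : ω' ∈ CC c E A B := by
  obtain ⟨u, hu, v, hv, h2⟩ := h1
  refine ⟨u, hu, v, hv, h2.mono ?_⟩
  rintro w ⟨hw1, hw2⟩
  refine ⟨?_, hw2⟩
  show ω' w = c
  rw [← h w (Finset.mem_coe.1 hw2)]
  exact hw1

theorem loc_CC {c : Bool} {E : Finset (ℤ × ℤ)} {A B : Set (ℤ × ℤ)} :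
    Loc E ((CC c E A B).indicator (1 : Cfg → ℝ)) := by
  intro ω ω' h
  by_cases h1 : ω ∈ CC c E A B
  · rw [Set.indicator_of_mem h1, Set.indicator_of_mem (cc_congr h h1)]
    rfl
  · rw [Set.indicator_of_notMem h1,
      Set.indicator_of_notMem fun h2 => h1 (cc_congr (fun v hv => (h v hv).symm) h2)]

/-! ### The bank -/

/-- The sites of the other colour at squares of `O`. -/
def Bank (c : Bool) (O : Finset (ℤ × ℤ)) : Set (ℤ × ℤ) :=
  {x | (x.1 + x.2) % 2 = pr (!c) ∧ ∃ v ∈ O, Cor v x}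

/-- Squares off `O` of the colour `!c` join the ray `s` or the bank to the other ray. -/
def Bk (s c : Bool) (O : Finset (ℤ × ℤ)) (b : ℤ × ℤ) (r R : ℤ) : Set Cfg :=
  CC (!c) (dF b r R \ O) (ray s (!c) b r R ∪ Bank c O) (ray (!s) (!c) b r R)

/-- **The fresh connection.** -/
theorem bk_ge (hQ : Kit Q) (s : Bool) (hr : 1 ≤ r) (hrR : r ≤ R) {O : Finset (ℤ × ℤ)} (hη : Good η)
    (hD : dF b r R \ O ⊆ D) : 1 - pX Q c b r R ≤ Pr Q D η (Bk s c O b r R) := by
  have h := rough_c (c := !c) (S := dF b r R) (L := O) (D := D) (A := ray s (!c) b r R)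
    (B := ray (!s) (!c) b r R) (A' := ray s (!c) b r R ∪ Bank c O) (B' := ray (!s) (!c) b r R)
    hQ.pos hQ.le hη (conn_bs (b := b) (R := R) hr) ray_bs ray_bs Set.subset_union_left subset_rfl
    (fun e he _ => Or.inl fun x hx hxp => Or.inr ⟨hxp, e, he, hx⟩) hD
  refine le_trans (le_of_eq ?_) h
  unfold pX
  rw [Pr_cp hQ.pos, Xc_compl hr hrR s]
  ring

/-- The squares around a site of the colour `c`, joined in the other colour. -/
theorem ring_conn {S : Set (ℤ × ℤ)} {w v v' x x' : ℤ × ℤ}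
    (hS : ∀ i, i ∈ H192.TA.dq b r R → Cor i w → i ∈ S)
    (hv : v ∈ H192.TA.dq b r R) (hvw : Cor v w) (hvx : Cor v x)
    (hx : (x.1 + x.2) % 2 ≠ (w.1 + w.2) % 2) (hv' : v' ∈ H192.TA.dq b r R) (hvw' : Cor v' w)
    (hvx' : Cor v' x') (hx' : (x'.1 + x'.2) % 2 ≠ (w.1 + w.2) % 2) : Pw S x x' := by
  -- the four squares around `w`
  have e1 : w ∈ H192.TA.dq b r R → Pw S (w.1 + 1, w.2) (w.1, w.2 + 1) := by
    intro h
    refine ReflTransGen.single ⟨by dsimp only; omega, by dsimp only; omega, ?_⟩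
    have e : ((min (w.1 + 1) w.1, min w.2 (w.2 + 1)) : ℤ × ℤ) = w := Prod.ext (by dsimp only; omega)
      (by dsimp only; omega)
    dsimp only
    rw [e]
    exact hS _ h ⟨Or.inl rfl, Or.inl rfl⟩
  have e2 : ((w.1 - 1, w.2) : ℤ × ℤ) ∈ H192.TA.dq b r R → Pw S (w.1 - 1, w.2) (w.1, w.2 + 1) := by
    intro h
    refine ReflTransGen.single ⟨by dsimp only; omega, by dsimp only; omega, ?_⟩
    have e : ((min (w.1 - 1) w.1, min w.2 (w.2 + 1)) : ℤ × ℤ) = (w.1 - 1, w.2) :=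
      Prod.ext (by dsimp only; omega) (by dsimp only; omega)
    dsimp only
    rw [e]
    exact hS _ h ⟨Or.inr (by dsimp only; omega), Or.inl rfl⟩
  have e3 : ((w.1, w.2 - 1) : ℤ × ℤ) ∈ H192.TA.dq b r R → Pw S (w.1 + 1, w.2) (w.1, w.2 - 1) := by
    intro h
    refine ReflTransGen.single ⟨by dsimp only; omega, by dsimp only; omega, ?_⟩
    have e : ((min (w.1 + 1) w.1, min w.2 (w.2 - 1)) : ℤ × ℤ) = (w.1, w.2 - 1) :=
      Prod.ext (by dsimp only; omega) (by dsimp only; omega)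
    dsimp only
    rw [e]
    exact hS _ h ⟨Or.inl rfl, Or.inr (by dsimp only; omega)⟩
  have e4 : ((w.1 - 1, w.2 - 1) : ℤ × ℤ) ∈ H192.TA.dq b r R →
      Pw S (w.1 - 1, w.2) (w.1, w.2 - 1) := by
    intro h
    refine ReflTransGen.single ⟨by dsimp only; omega, by dsimp only; omega, ?_⟩
    have e : ((min (w.1 - 1) w.1, min w.2 (w.2 - 1)) : ℤ × ℤ) = (w.1 - 1, w.2 - 1) :=
      Prod.ext (by dsimp only; omega) (by dsimp only; omega)
    dsimp only
    rw [e]
    exact hS _ h ⟨Or.inr (by dsimp only; omega), Or.inr (by dsimp only; omega)⟩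
  -- one square: north or south
  have key : ∀ v x : ℤ × ℤ, v ∈ H192.TA.dq b r R → Cor v w → Cor v x →
      (x.1 + x.2) % 2 ≠ (w.1 + w.2) % 2 →
      (v.2 = w.2 ∧ Pw S x (w.1, w.2 + 1)) ∨ (v.2 = w.2 - 1 ∧ Pw S x (w.1, w.2 - 1)) := by
    intro v x hv hvw hvx hx
    unfold Cor at hvw hvx
    have hvx1 : x.1 = v.1 ∨ x.1 = v.1 + 1 := hvx.1
    have hvx2 : x.2 = v.2 ∨ x.2 = v.2 + 1 := hvx.2
    rcases hvw with ⟨h1 | h1, h2 | h2⟩
    · -- v = w
      have hvw : v = w := Prod.ext h1.symm h2.symm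
      subst hvw
      refine Or.inl ⟨rfl, ?_⟩
      by_cases k : x.1 = v.1
      · have : x = (v.1, v.2 + 1) := Prod.ext k (by dsimp only; omega)
        rw [this]
      · have : x = (v.1 + 1, v.2) := Prod.ext (by dsimp only; omega) (by dsimp only; omega)
        rw [this]
        exact e1 hv
    · -- v = w - (0,1)
      have hvw : v = (w.1, w.2 - 1) := Prod.ext h1.symm (by dsimp only; omega)
      rw [hvw] at hv
      refine Or.inr ⟨by omega, ?_⟩
      by_cases k : x.1 = v.1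
      · have : x = (w.1, w.2 - 1) := Prod.ext (by dsimp only; omega) (by dsimp only; omega)
        rw [this]
      · have : x = (w.1 + 1, w.2) := Prod.ext (by dsimp only; omega) (by dsimp only; omega)
        rw [this]
        exact e3 hv
    · have hvw : v = (w.1 - 1, w.2) := Prod.ext (by dsimp only; omega) h2.symm
      rw [hvw] at hv
      refine Or.inl ⟨by omega, ?_⟩
      by_cases k : x.1 = v.1
      · have : x = (w.1 - 1, w.2) := Prod.ext (by dsimp only; omega) (by dsimp only; omega)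
        rw [this]
        exact e2 hv
      · have : x = (w.1, w.2 + 1) := Prod.ext (by dsimp only; omega) (by dsimp only; omega)
        rw [this]
    · have hvw : v = (w.1 - 1, w.2 - 1) := Prod.ext (by dsimp only; omega) (by dsimp only; omega)
      rw [hvw] at hv
      refine Or.inr ⟨by omega, ?_⟩
      by_cases k : x.1 = v.1
      · have : x = (w.1 - 1, w.2) := Prod.ext (by dsimp only; omega) (by dsimp only; omega)
        rw [this]
        exact e4 hv
      · have : x = (w.1, w.2 - 1) := Prod.ext (by dsimp only; omega) (by dsimp only; omega)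
        rw [this]
  have hNS : ∀ v v' : ℤ × ℤ, v ∈ H192.TA.dq b r R → v' ∈ H192.TA.dq b r R → Cor v w → Cor v' w →
      v.2 = w.2 → v'.2 = w.2 - 1 → Pw S (w.1, w.2 + 1) (w.1, w.2 - 1) := by
    intro v v' hv hv' hvw hvw' h1 h2
    have h3 : (w ∈ H192.TA.dq b r R ∧ ((w.1, w.2 - 1) : ℤ × ℤ) ∈ H192.TA.dq b r R) ∨
        (((w.1 - 1, w.2) : ℤ × ℤ) ∈ H192.TA.dq b r R ∧
          ((w.1 - 1, w.2 - 1) : ℤ × ℤ) ∈ H192.TA.dq b r R) := by
      unfold Cor at hvw hvw'
      simp only [H192.TA.dq, Set.mem_ofPred_eq] at hv hv' ⊢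
      omega
    rcases h3 with ⟨h3, h4⟩ | ⟨h3, h4⟩
    · exact (Pw.symm (e1 h3)).trans (e3 h4)
    · exact (Pw.symm (e2 h3)).trans (e4 h4)
  rcases key v x hv hvw hvx hx with ⟨k1, k2⟩ | ⟨k1, k2⟩
  · rcases key v' x' hv' hvw' hvx' hx' with ⟨k3, k4⟩ | ⟨k3, k4⟩
    · exact k2.trans (Pw.symm k4)
    · exact (k2.trans (hNS v v' hv hv' hvw hvw' k1 k3)).trans (Pw.symm k4)
  · rcases key v' x' hv' hvw' hvx' hx' with ⟨k3, k4⟩ | ⟨k3, k4⟩
    · exact (k2.trans (Pw.symm (hNS v' v hv' hv hvw' hvw k3 k1))).trans (Pw.symm k4)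
    · exact k2.trans (Pw.symm k4)

theorem sr_of_cor {v x : ℤ × ℤ} (hv : v ∈ H192.TA.dq b r R) (hx : Cor v x) : x ∈ sr b r R := by
  unfold Cor at hx
  simp only [H192.TA.dq, sr, Set.mem_ofPred_eq] at hv ⊢
  omega

/-- **The bank is joined to its ray.** -/
theorem bank_conn (hr : 1 ≤ r) {s : Bool} {ω : Cfg} {x : ℤ × ℤ}
    (hx : x ∈ Bank c (Rl c b r R (ray s c b r R) ω)) :
    ∃ p ∈ ray s (!c) b r R, Pw (↑(Rl c b r R (ray s c b r R) ω) : Set (ℤ × ℤ)) p x := by
  set O := Rl c b r R (ray s c b r R) ω with hO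
  have hpar : pr (!c) = 1 - pr c := pr_not c
  have hring : ∀ w ∈ Kl c b r R (ray s c b r R) ω, ∀ i, i ∈ H192.TA.dq b r R → Cor i w →
      i ∈ (↑O : Set (ℤ × ℤ)) := by
    intro w hw i hi hiw
    exact Finset.mem_coe.2 (H192.mem_Rv.2 ⟨mem_dF.2 hi, w, hw, _, lkk_of_cor hiw⟩)
  have key : ∀ w p0, p0 ∈ ray s c b r R → Pw (cs c ω ∩ H192.TA.dq b r R) p0 w →
      ∀ v x, v ∈ H192.TA.dq b r R → Cor v w → Cor v x → (x.1 + x.2) % 2 = pr (!c) →
      ∃ p ∈ ray s (!c) b r R, Pw (↑O : Set (ℤ × ℤ)) p x := by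
    intro w p0 hp0 h
    have hp0p := hp0.2.2.2
    induction h with
    | refl =>
      intro v x hv hvw hvx hxp
      obtain ⟨h1, h2, h3, h4⟩ := hp0
      have hv2 : v.2 = p0.2 := by
        unfold Cor at hvw
        simp only [H192.TA.dq, Set.mem_ofPred_eq] at hv
        omega
      have hring0 := hring p0 (H192.Cl_base ⟨h1, h2, h3, h4⟩)
      obtain ⟨q, hq⟩ : ∃ q : ℤ × ℤ, q = (2 * v.1 + 1 - p0.1, p0.2) := ⟨_, rfl⟩
      have hvq : Cor v q := by
        unfold Cor at hvw ⊢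
        rw [hq]
        dsimp only
        omega
      have hqs := sr_of_cor hv hvq
      have hqp : (q.1 + q.2) % 2 = pr (!c) := by
        rw [hq, hpar]
        dsimp only
        rcases pr_or c with e | e <;> rw [e] at h4 ⊢ <;> omega
      refine ⟨q, ⟨hqs, by rw [hq]; exact h2, ?_, hqp⟩, ?_⟩
      · unfold Cor at hvw
        rw [hq] at hqs ⊢
        simp only [sr, Set.mem_ofPred_eq] at hqs h1 ⊢
        rcases sgn_or s with e | e <;> rw [e] at h3 ⊢ <;> omega
      · refine ring_conn hring0 hv hvw hvq ?_ hv hvw hvx ?_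
        · rw [hqp, h4, hpar]; rcases pr_or c with e | e <;> rw [e] <;> omega
        · rw [hxp, h4, hpar]; rcases pr_or c with e | e <;> rw [e] <;> omega
    | @tail u w hu huw ih =>
      intro v x hv hvw hvx hxp
      obtain ⟨i, hi⟩ : ∃ i : ℤ × ℤ, i = (min u.1 w.1, min u.2 w.2) := ⟨_, rfl⟩
      have hiw := cor_of_step huw
      rw [← hi] at hiw
      have hid : i ∈ H192.TA.dq b r R := by rw [hi]; exact huw.2.2.2
      have hup : (u.1 + u.2) % 2 = pr c := by rw [← hp0p]; exact (Pw.parity hu).symm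
      have hwp : (w.1 + w.2) % 2 = pr c := by
        rw [← hup]
        have h1 := huw.1
        have h2 := huw.2.1
        omega
      obtain ⟨y, hy⟩ : ∃ y : ℤ × ℤ, y = (u.1, w.2) := ⟨_, rfl⟩
      have hiy : Cor i y := by
        unfold Cor at hiw ⊢
        rw [hy]
        dsimp only
        exact ⟨hiw.1.1, hiw.2.2⟩
      have hyp : (y.1 + y.2) % 2 = pr (!c) := by
        rw [hy, hpar]
        dsimp only
        have h1 := huw.1
        have h2 := huw.2.1
        rcases pr_or c with e | e <;> rw [e] at hup hwp ⊢ <;> omega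
      obtain ⟨p, hp, hpy⟩ := ih i y hid hiw.1 hiy hyp
      refine ⟨p, hp, hpy.trans ?_⟩
      refine ring_conn (hring w (mem_Kl.2 ⟨p0, hp0, hu.tail huw⟩)) hid hiw.2 hiy ?_ hv hvw hvx ?_
      · rw [hyp, hwp, hpar]; rcases pr_or c with e | e <;> rw [e] <;> omega
      · rw [hxp, hwp, hpar]; rcases pr_or c with e | e <;> rw [e] <;> omega
  obtain ⟨hxp, v, hvO, hvx⟩ := hx
  obtain ⟨hvd, u, hu, w, hvu⟩ := H192.mem_Rv.1 hvO
  obtain ⟨p0, hp0, hpu⟩ := mem_Kl.1 (show u ∈ Kl c b r R (ray s c b r R) ω from hu)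
  exact key u p0 hp0 hpu v x (mem_dF.1 hvd) (cor_of_lkk hvu).1 hvx hxp

/-! ### Killed configurations -/

theorem cs_kill_sub {O : Finset (ℤ × ℤ)} {ω : Cfg} (E : Finset (ℤ × ℤ)) :
    cs (!c) ω ∩ ↑(E \ O) ⊆ cs (!c) (kill c O ω) := by
  rintro v ⟨hv1, hv2⟩
  have h := (Finset.mem_sdiff.1 (Finset.mem_coe.1 hv2)).2
  show kill c O ω v = !c
  rw [kill_out h]
  exact hv1

theorem coe_kill_sub {O : Finset (ℤ × ℤ)} {ω : Cfg} : (↑O : Set (ℤ × ℤ)) ⊆ cs (!c) (kill c O ω) :=
  fun _ hv => kill_in (Finset.mem_coe.1 hv)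

/-- The fresh connection continued along the bank. -/
theorem bk_path (hr : 1 ≤ r) (h1 : r ≤ r') (h2 : R' ≤ R) {s : Bool} {ω ω' : Cfg}
    {O : Finset (ℤ × ℤ)} (hO : O = Rl c b r R (ray s c b r R) ω) (h : ω' ∈ Bk s c O b r' R') :
    ∃ p ∈ ray s (!c) b r R, ∃ y ∈ ray (!s) (!c) b r' R',
      Pw (cs (!c) (kill c O ω') ∩ H192.TA.dq b r R) p y := by
  obtain ⟨x, hx, y, hy, hxy⟩ := h
  have hr'sub : ∀ t q, q ∈ ray t (!c) b r' R' → q ∈ ray t (!c) b r R := by
    rintro t q ⟨q1, q2, q3, q4⟩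
    refine ⟨?_, q2, q3, q4⟩
    simp only [sr, Set.mem_ofPred_eq] at q1 ⊢
    omega
  have hxy' : Pw (cs (!c) (kill c O ω') ∩ H192.TA.dq b r R) x y := by
    refine hxy.mono ?_
    intro v hv
    refine ⟨cs_kill_sub _ hv, ?_⟩
    exact dq_mono h1 h2 (mem_dF.1 (Finset.mem_sdiff.1 (Finset.mem_coe.1 hv.2)).1)
  rcases hx with hx | hx
  · exact ⟨x, hr'sub _ _ hx, y, hy, hxy'⟩
  · rw [hO] at hx
    obtain ⟨p, hp, hpx⟩ := bank_conn hr hx
    refine ⟨p, hp, y, hy, (hpx.mono ?_).trans hxy'⟩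
    intro v hv
    rw [← hO] at hv
    refine ⟨coe_kill_sub hv, ?_⟩
    rw [hO] at hv
    exact mem_dF.1 (Rl_sub ω (Finset.mem_coe.1 hv))

/-- A fresh connection excludes a fresh crossing. -/
theorem Xo_not_Bk (hr : 1 ≤ r) (hrR : r ≤ R) {s : Bool} {ω : Cfg} {O : Finset (ℤ × ℤ)}
    (hO : O = Rl c b r R (ray s c b r R) ω) (h : ω ∈ Xo c O b r R) : ω ∉ Bk s c O b r R := by
  intro hB
  obtain ⟨p, hp, y, hy, hpy⟩ := bk_path hr le_rfl le_rfl hO hB
  refine no_cross (c := !c) (ω := kill c O ω) hr hrR ?_ hp hy hpy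
  rw [Bool.not_not]
  obtain ⟨z, z', g1, g2, g3, g4, g5⟩ := h
  refine ⟨z, z', g1, g2, g3, g4.mono ?_, g5⟩
  rintro v ⟨hv1, hv2, hv3⟩
  refine ⟨?_, hv2⟩
  show kill c O ω v = c
  rw [kill_out fun h => hv3 (Finset.mem_coe.2 h)]
  exact hv1

/-- **The deterministic step.** -/
theorem det_bk {s : Bool} (hr : 1 ≤ r) (h1 : r < m1) (h12 : m1 ≤ m2) (h2 : m2 ≤ R) {ω : Cfg}
    (hY : ∀ q ∈ Kl c b r R (ray s c b r R) ω, q ∉ ray (!s) c b r R)
    (hi : ω ∈ Bk s c (Rl c b r R (ray s c b r R) ω) b r m1)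
    (ho : ω ∈ Bk s c (Rl c b r R (ray s c b r R) ω) b m2 R) :
    ω ∈ Pe (!s) (!c) b r R m1 m2 := by
  set O := Rl c b r R (ray s c b r R) ω with hO
  have hpar : pr (!c) = 1 - pr c := pr_not c
  have e : glue (↑O) ω (kill c O ω) = ω := by
    funext v
    by_cases hv : v ∈ O
    · rw [glue_mem (Finset.mem_coe.2 hv)]
    · rw [glue_not_mem (fun h => hv (Finset.mem_coe.1 h)), kill_out hv]
  have key := arc_side (F := cs c ω) (b := b) (pr_or c) hr h1 h12 h2 (!s) (by
      intro t ht1 ht2 htp v hv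
      have hsr : bp b (!s) t ∈ sr b r R := bp_sr (by omega) (by omega) (by omega)
      have hray : bp b (!s) t ∈ ray (!s) c b r R := by
        refine ⟨hsr, rfl, ?_, htp⟩
        simp only [bp]
        rcases sgn_or (!s) with e | e <;> rw [e] <;> omega
      have hK : bp b (!s) t ∉ Kl c b r R (ray s c b r R) ω := fun h => hY _ h hray
      have hv' : Pw (cs c (glue (↑O) ω (kill c O ω)) ∩ H192.TA.dq b r R) (bp b (!s) t) v := by
        rw [e]; exact hv
      obtain ⟨k1, k2⟩ := fresh_path (fun p hp => hp.2.2.2) hK htp hv'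
      have hvs := k2.mem_sr hsr
      have hvp : (v.1 + v.2) % 2 = pr c := by rw [← htp]; exact k2.parity.symm
      have hn : nm (bp b (!s) t - b) = t := nm_bp (by omega)
      have ecs : (cs c (kill c O ω))ᶜ = cs (!c) (kill c O ω) := cs_compl _ _
      have hbp1 : sgn (!s) * ((bp b (!s) t).1 - b.1) = t := by
        simp only [bp]
        rcases sgn_or (!s) with e | e <;> rw [e] <;> omega
      refine ⟨?_, ?_, ?_⟩
      · by_contra hcon
        obtain ⟨p, hp, y, hy, hpy⟩ := bk_path hr le_rfl (h12.trans h2) hO hi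
        obtain ⟨p1, p2, p3, p4⟩ := hp
        obtain ⟨y1, y2, y3, y4⟩ := hy
        rw [← ecs] at hpy
        refine xin (x := bp b (!s) t) (y := y) s (pr_or c) hr hsr rfl htp k2 (by omega) p1 p3 p2
          (by rw [p4, hpar]) y3 y2 ?_ hpy
        rw [hbp1]
        have hne : sgn (!s) * (y.1 - b.1) ≠ t := by
          intro h
          rw [hpar] at y4
          simp only [bp] at htp
          rcases sgn_or (!s) with e | e <;> rw [e] at htp h <;>
            rcases pr_or c with e' | e' <;> rw [e'] at htp y4 <;> omega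
        simp only [sr, Set.mem_ofPred_eq] at y1
        have : sgn (!s) * (y.1 - b.1) ≤ m1 := by
          rcases sgn_or (!s) with e | e <;> rw [e] <;> omega
        omega
      · by_contra hcon
        obtain ⟨p, hp, y, hy, hpy⟩ := bk_path hr ((h1.trans_le h12).le) le_rfl hO ho
        obtain ⟨p1, p2, p3, p4⟩ := hp
        obtain ⟨y1, y2, y3, y4⟩ := hy
        rw [← ecs] at hpy
        refine xout (x := bp b (!s) t) (y := y) s (pr_or c) hr hsr rfl (by rw [hbp1]; omega) htp k2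
          (by omega) p1 p3 p2 (by rw [p4, hpar]) y2 ?_ hpy
        rw [hbp1]
        have hne : sgn (!s) * (y.1 - b.1) ≠ t := by
          intro h
          rw [hpar] at y4
          simp only [bp] at htp
          rcases sgn_or (!s) with e | e <;> rw [e] at htp h <;>
            rcases pr_or c with e' | e' <;> rw [e'] at htp y4 <;> omega
        simp only [sr, Set.mem_ofPred_eq] at y1
        have : m2 ≤ sgn (!s) * (y.1 - b.1) := by
          rcases sgn_or (!s) with e | e <;> rw [e] at y3 ⊢ <;> omega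
        omega
      · intro hv2
        by_contra hcon
        refine k1 (H192.Cl_base ⟨hvs, hv2, ?_, hvp⟩)
        rw [sgn_not] at hcon
        simp only [sr, Set.mem_ofPred_eq] at hvs
        rcases sgn_or s with e | e <;> rw [e] at hcon ⊢ <;> omega)
  obtain ⟨t, t', g1, g2, g3, g4, g5, g6⟩ := key
  rw [cs_compl] at g6
  exact ⟨t, t', g1, g2, g3, g4, by rw [g5, hpar], g6⟩

/-! ### One stage -/

/-- Two fresh connections. -/
theorem two_freshN (hQ : Kit Q) (s : Bool) (hr : 1 ≤ r) (h1 : r < m1) (h12 : m1 ≤ m2) (h2 : m2 ≤ R)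
    {p : ℝ} (hp1 : p ≤ 1) (hX1 : pX Q c b r m1 ≤ p) (hX2 : pX Q c b m2 R ≤ p) (hD : dF b r R ⊆ D)
    (O : Finset (ℤ × ℤ)) {ω : Cfg} (hω : Good ω) :
    (1 - p) ^ 2 ≤ Ex Q (D \ O) ω (fun ω' =>
      (Bk s c O b r m1).indicator 1 ω' * (Bk s c O b m2 R).indicator 1 ω') := by
  have hQ0 := hQ.pos
  have hsub : ∀ r' R' : ℤ, r ≤ r' → R' ≤ R → dF b r' R' \ O ⊆ D \ O := fun r' R' k1 k2 =>
    Finset.sdiff_subset_sdiff ((dF_mono k1 k2).trans hD) le_rfl
  have hind : Ind (dF b r m1 \ O) ((Bk s c O b m2 R).indicator (1 : Cfg → ℝ)) := by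
    refine loc_CC.ind ?_
    rw [Finset.disjoint_left]
    intro v hv hv'
    have a1 := mem_dF.1 (Finset.mem_sdiff.1 hv).1
    have a2 := mem_dF.1 (Finset.mem_sdiff.1 hv').1
    simp only [H192.TA.dq, Set.mem_ofPred_eq] at a1 a2
    omega
  have e : (fun ω' => (Bk s c O b r m1).indicator (1 : Cfg → ℝ) ω' *
      (Bk s c O b m2 R).indicator 1 ω') = fun ω' => (Bk s c O b m2 R).indicator (1 : Cfg → ℝ) ω' *
      (Bk s c O b r m1).indicator 1 ω' := by
    funext ω'
    ring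
  rw [e, markov f_markov hQ0 (A := dF b r m1 \ O) (hsub r m1 le_rfl (by omega)) hω hind]
  have h3 : (1 - p) * Ex Q (D \ O) ω ((Bk s c O b m2 R).indicator 1) ≤
      Ex Q (D \ O) ω (fun ω' => (Bk s c O b m2 R).indicator (1 : Cfg → ℝ) ω' *
        Ex Q (dF b r m1 \ O) ω' ((Bk s c O b r m1).indicator 1)) := by
    rw [← Ex_mul_left]
    refine Ex_mono hQ0 fun T _ => ?_
    rw [mul_comm (1 - p)]
    refine mul_le_mul_of_nonneg_left ?_ (ind_nonneg _ _)
    have := bk_ge (c := c) (b := b) (R := m1) (O := O) hQ s hr h1.le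
      (f_good.1 (D \ O) ω T hω) subset_rfl
    unfold Pr at this
    linarith
  have h4 : 1 - p ≤ Ex Q (D \ O) ω ((Bk s c O b m2 R).indicator 1) := by
    have := bk_ge (c := c) (b := b) (r := m2) (R := R) (O := O) hQ s (by omega) h2 hω
      (hsub m2 R (by omega) le_rfl)
    unfold Pr at this
    linarith
  refine le_trans ?_ h3
  rw [sq]
  exact mul_le_mul_of_nonneg_left h4 (by linarith)

/-- **One stage.** -/
theorem stageQ (hQ : Kit Q) {s : Bool} (hr : 1 ≤ r) (h1 : r < m1) (h12 : m1 ≤ m2) (h2 : m2 ≤ R)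
    {p : ℝ} (hp1 : p ≤ 1) (hX1 : pX Q c b r m1 ≤ p) (hX2 : pX Q c b m2 R ≤ p)
    (hD : dF b r R ⊆ D) (hη : Good η) {Y : Cfg → Prop}
    (hYp : Past (Rl c b r R (ray s c b r R)) Y)
    (hY : ∀ ω, Y ω → ∀ q ∈ Kl c b r R (ray s c b r R) ω, q ∉ ray (!s) c b r R) :
    (1 - p) ^ 2 * Pr Q D η {ω | Y ω} ≤ Pr Q D η ({ω | Y ω} ∩ Pe (!s) (!c) b r R m1 m2) := by
  have hQ0 := hQ.pos
  set O : Cfg → Finset (ℤ × ℤ) := fun ω => Rl c b r R (ray s c b r R) ω with hO
  have hst : StopSet O := stop_Rl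
  set H : Cfg → ℝ := fun ω => (Bk s c (O ω) b r m1).indicator 1 ω *
    (Bk s c (O ω) b m2 R).indicator 1 ω with hH
  have hG : Past O ({ω | Y ω}.indicator (1 : Cfg → ℝ)) := by
    intro ω ω' h
    have h3 : Y ω' = Y ω := hYp ω ω' h
    have h4 : ω' ∈ {ω | Y ω} ↔ ω ∈ {ω | Y ω} := by
      show Y ω' ↔ Y ω
      rw [h3]
    by_cases h5 : ω ∈ {ω | Y ω}
    · rw [Set.indicator_of_mem h5, Set.indicator_of_mem (h4.2 h5)]
      rfl
    · rw [Set.indicator_of_notMem h5, Set.indicator_of_notMem fun h6 => h5 (h4.1 h6)]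
  have h3 : Ex Q D η (fun ω => {ω | Y ω}.indicator 1 ω * H ω) ≤
      Pr Q D η ({ω | Y ω} ∩ Pe (!s) (!c) b r R m1 m2) := by
    refine Ex_mono hQ0 fun S _ => ?_
    rw [ind_inter]
    by_cases hYS : cf D η S ∈ {ω | Y ω}
    · refine mul_le_mul_of_nonneg_left ?_ (ind_nonneg _ _)
      by_cases g1 : cf D η S ∈ Bk s c (O (cf D η S)) b r m1
      · by_cases g2 : cf D η S ∈ Bk s c (O (cf D η S)) b m2 R
        · have g3 := det_bk hr h1 h12 h2 (hY _ hYS) g1 g2
          rw [Set.indicator_of_mem g3]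
          simp only [hH]
          rw [Set.indicator_of_mem g1, Set.indicator_of_mem g2]
          simp
        · simp only [hH]
          rw [Set.indicator_of_notMem g2, mul_zero]
          exact ind_nonneg _ _
      · simp only [hH]
        rw [Set.indicator_of_notMem g1, zero_mul]
        exact ind_nonneg _ _
    · rw [Set.indicator_of_notMem hYS]
      simp
  refine le_trans ?_ h3
  unfold Pr
  rw [stop_markov hQ0 hη hst hG (fun ω => (Rl_sub ω).trans hD), ← Ex_mul_left]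
  refine Ex_mono hQ0 fun S _ => ?_
  rw [mul_comm]
  refine mul_le_mul_of_nonneg_left ?_ (ind_nonneg _ _)
  set ω := cf D η S with hω
  have hg : Good ω := f_good.1 D η S hη
  refine (two_freshN hQ s hr h1 h12 h2 hp1 hX1 hX2 hD (O ω) hg).trans (le_of_eq ?_)
  refine Ex_congr fun T _ => ?_
  have h5 : O (cf (D \ O ω) ω T) = O ω := hst ω _ fun i hi => by
    rw [cf_out fun h => (Finset.mem_sdiff.1 h).2 hi]
  simp only [hH]
  rw [h5]

end Vale.Agent.P167.N.H192.Q
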