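import Vale.Agent.P167.N.H192.Q.Exp
import Vale.Agent.P167.N.H192.Q.Bank
import Vale.Agent.P167.H192.Q.Fresh

/-! P167: `comp_skin`, `fresh_le`, `two_fresh` are replaced by `bk_ge`, `two_freshN`; `stageQ` is in
`N.H192.Q.Bank`. -/
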