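import Vale.Agent.P167.N.H192.Q.RatB

/-!
# P167, `q < 1`: ratio mixing in an annulus at a free (wired) boundary of simple shape

Nothing is assumed inside of the box `r` and outside of the box `R`.
-/

namespace Vale.Agent.P167.N.H192.Q

open Finset Relation Vale.Agent.P167.FK Vale.Agent.P167.FKA Vale.Agent.P167.H635
open Vale.Agent.P167.N.MIX
open Vale.Agent.P167.H259 (f_markov)
open Vale.Agent.P167.H192.Q (An FrA WrA SdA Sc sq1 sq1_inj im_Bq im_An loc_du)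

variable {Q : ℝ} {x : ℤ × ℤ} {r r1 r2 R2 R1 R : ℤ} {A V V' : Finset (ℤ × ℤ)} {F G : Cfg → ℝ}
  {ξ ξ' : Cfg} {p : ℝ}

section Main

variable {L M : ℤ} {D D' : Finset (ℤ × ℤ)} {η η' : Cfg}

theorem rat4_of (hQ : Kit Q) (hL : RatS Q L) : RatS4 Q (L * L) := ratS4_of hQ.pos hL

/-- **Ratio mixing in an annulus at a free boundary**, any shape. -/
theorem rat_ann_of (hQ : Kit Q) (hr : 1 ≤ r) (h1 : r ≤ r1) (h12 : r1 ≤ R1) (h2 : R1 ≤ R)
    (hp1 : ArmAt Q x r r1 D (1 / 4)) (hp2 : ArmAt Q x R1 R D (1 / 4))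
    (hDD : D ∩ An x r R = D' ∩ An x r R) (hVD : V ⊆ D)
    (hV : V ⊆ An x r1 R1) (hF0 : ∀ ω, 0 ≤ F ω) (hFV : Loc V F) (hη : Good η) (hη' : Good η')
    (hfr : FrA x r R D η) (hfr' : FrA x r R D' η') : Ex Q D η F ≤ 8 * Ex Q D' η' F := by
  have h := ann_two hQ.pos hQ.le hr h1 h12 h2 hp1 hp2 (by norm_num) (by norm_num) hVD hV hF0 hFV
    hη hfr hη' hfr' hDD
  have n1 : 0 ≤ Ex Q D' η' F := Ex_nonneg hQ.pos fun _ _ => hF0 _
  norm_num at h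
  linarith

/-- **Ratio mixing in an annulus at a free boundary.** -/
theorem rat_ann (hQ : Kit Q) (hM : RatS4 Q M) (hs : Sc M r r1 R1 R)
    (hDD : D ∩ An x r R = D' ∩ An x r R) (hVD : V ⊆ D)
    (hV : V ⊆ An x r1 R1) (hF0 : ∀ ω, 0 ≤ F ω) (hFV : Loc V F) (hη : Good η) (hη' : Good η')
    (hfr : FrA x r R D η) (hfr' : FrA x r R D' η') (hS : Shp D x r R) :
    Ex Q D η F ≤ 8 * Ex Q D' η' F := by
  obtain ⟨a1, a2, a3, a4, a5⟩ := hs.le hM.one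
  exact rat_ann_of hQ hs.h0 (a1.trans a2) hs.h2 (a4.trans a5)
    (hM.shp x r r1 D hs.h0 a2 (hS.mono le_rfl (hs.h2.trans (a4.trans a5))))
    (hM.shp x R1 R D (a3.trans hs.h2) a5 (hS.mono (a1.trans (a2.trans hs.h2)) le_rfl))
    hDD hVD hV hF0 hFV hη hη' hfr hfr'

/-- The free measure of the part of the domain in the annulus. -/
theorem dom_ann (hQ : Kit Q) (hM : RatS4 Q M) (hs : Sc M r r1 R1 R) (hVD : V ⊆ D)
    (hV : V ⊆ An x r1 R1) (hF0 : ∀ ω, 0 ≤ F ω) (hFV : Loc V F) (hη : Good η)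
    (hfr : FrA x r R D η) (hS : Shp D x r R) : Ex Q D η F ≤ 4 * Ex Q (D ∩ An x r R) eta0 F ∧
      Ex Q (D ∩ An x r R) eta0 F ≤ 4 * Ex Q D η F := by
  obtain ⟨a1, a2, a3, a4, a5⟩ := hs.le hM.one
  have h1 : r ≤ r1 := a1.trans a2
  have h2 : R1 ≤ R := a4.trans a5
  have hDD : D ∩ An x r R = (D ∩ An x r R) ∩ An x r R := by
    rw [Finset.inter_assoc, Finset.inter_self]
  have hS' : Shp (D ∩ An x r R) x r R := hS.trace hDD
  have p1 := hM.shp x r r1 D hs.h0 a2 (hS.mono le_rfl (hs.h2.trans h2))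
  have p2 := hM.shp x R1 R D (a3.trans hs.h2) a5 (hS.mono (h1.trans hs.h2) le_rfl)
  have p1' := hM.shp x r r1 _ hs.h0 a2 (hS'.mono le_rfl (hs.h2.trans h2))
  have p2' := hM.shp x R1 R _ (a3.trans hs.h2) a5 (hS'.mono (h1.trans hs.h2) le_rfl)
  have hVA : V ⊆ D ∩ An x r R := fun v hv =>
    Finset.mem_inter.2 ⟨hVD hv, ann_mono h1 h2 (hV hv)⟩
  have hc : Cl (Ann x r R) (D ∩ An x r R) eta0 := fun _ _ _ => rfl
  have k1 := ann_two hQ.pos hQ.le hs.h0 h1 hs.h2 h2 p1 p2 (by norm_num) (by norm_num) hVD hV hF0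
    hFV hη hfr f_good.2.1 hc hDD
  have k2 := ann_two hQ.pos hQ.le hs.h0 h1 hs.h2 h2 p1' p2' (by norm_num) (by norm_num) hVA hV hF0
    hFV f_good.2.1 hc hη hfr hDD.symm
  have n1 : 0 ≤ Ex Q D η F := Ex_nonneg hQ.pos fun _ _ => hF0 _
  have n2 : 0 ≤ Ex Q (D ∩ An x r R) eta0 F := Ex_nonneg hQ.pos fun _ _ => hF0 _
  norm_num at k1 k2
  constructor <;> linarith

/-- **Ratio mixing in an annulus at a wired boundary.** -/
theorem rat_ann_w (hQ : Kit Q) (hM : RatS4 Q M) (hs : Sc M r r1 R1 R)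
    (hDD : D ∩ An x r R = D' ∩ An x r R) (hVD : V ⊆ D)
    (hV : V ⊆ An x r1 R1) (hF0 : ∀ ω, 0 ≤ F ω) (hFV : Loc V F) (hη : Good η) (hη' : Good η')
    (hfr : WrA x r R D η) (hfr' : WrA x r R D' η') (hS : Shp D x r R) :
    Ex Q D η F ≤ 8 * Ex Q D' η' F := by
  rw [ex_du hQ hη F, ex_du hQ hη' F]
  refine rat_ann hQ hM hs ?_ (Finset.image_subset_image hVD)
    (by rw [← im_An]; exact Finset.image_subset_image hV) (fun _ => hF0 _) (loc_du hFV)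
    (f_dual.1 _ hη) (f_dual.1 _ hη') hfr.du hfr'.du (shp_du hS)
  rw [← im_An, ← Finset.image_inter _ _ sq1_inj, ← Finset.image_inter _ _ sq1_inj, hDD]

theorem rat_ann_e (e : Bool) (hQ : Kit Q) (hM : RatS4 Q M) (hs : Sc M r r1 R1 R)
    (hDD : D ∩ An x r R = D' ∩ An x r R) (hVD : V ⊆ D)
    (hV : V ⊆ An x r1 R1) (hF0 : ∀ ω, 0 ≤ F ω) (hFV : Loc V F) (hη : Good η) (hη' : Good η')
    (hfr : SdA e x r R D η) (hfr' : SdA e x r R D' η') (hS : Shp D x r R) :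
    Ex Q D η F ≤ 8 * Ex Q D' η' F := by
  cases e
  · exact rat_ann hQ hM hs hDD hVD hV hF0 hFV hη hη' hfr hfr' hS
  · exact rat_ann_w hQ hM hs hDD hVD hV hF0 hFV hη hη' hfr hfr' hS

end Main

end Vale.Agent.P167.N.H192.Q
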