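import Vale.Agent.P167.N.H192.Q.Rough
import Vale.Agent.P167.N.H192.Q.RatC
import Vale.Agent.P167.N.Base.ArmShp
import Vale.Agent.P167.H192.Q.Arm2
import Vale.Agent.P167.H192.TA.Arc2

/-!
# P167, `0 < q < 1`: crossing probabilities of half annuli

`pX Q c b r R`: the probability that the colour `c` crosses the half annulus when everything outside
has the opposite colour. For `q < 1` this is the largest crossing probability (`Xc_le`).
-/

set_option autoImplicit false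

namespace Vale.Agent.P167.N.H192.Q

open Finset Relation Vale.Agent.P167 Vale.Agent.P167.FK Vale.Agent.P167.FKA Vale.Agent.P167.H192.TA
  Vale.Agent.P167.H632 Vale.Agent.P167.H558 Vale.Agent.P167.H871 Vale.Agent.P167.H192.Q
open Vale.Agent.P145.FB (PStep PConn)
open Vale.Agent.P167.H259 (f_markov)

variable {Q : ℝ} {D A : Finset (ℤ × ℤ)} {η η' : Cfg} {F G : Cfg → ℝ} {c : Bool} {b : ℤ × ℤ}
  {r R m1 m2 : ℤ}

/-- Probability that the colour `c` crosses the half annulus, everything outside of the colour `!c`. -/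
noncomputable def pX (Q : ℝ) (c : Bool) (b : ℤ × ℤ) (r R : ℤ) : ℝ :=
  Pr Q (dF b r R) (etac (!c)) (Xc c b r R)

theorem coe_dF : (↑(dF b r R) : Set (ℤ × ℤ)) = H192.TA.dq b r R := by
  ext v
  rw [Finset.mem_coe, mem_dF]

theorem conn_bs (hr : 1 ≤ r) : ∀ s ∈ Bs c (dF b r R), ∀ t ∈ Bs c (dF b r R),
    Pw (↑(dF b r R))ᶜ s t := by
  rintro s ⟨hs, v, hv, hvs⟩ t ⟨ht, w, hw, hwt⟩
  rw [coe_dF]
  exact conn_out hr (by omega) (so_of_cor (fun h => hv (mem_dF.2 h)) hvs)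
    (so_of_cor (fun h => hw (mem_dF.2 h)) hwt)

theorem ray_bs {s : Bool} : ray s c b r R ⊆ Bs c (dF b r R) := by
  rintro p ⟨h1, h2, h3, h4⟩
  refine ⟨h4, (p.1, b.2 - 1), fun h => ?_, ?_⟩
  · have := mem_dF.1 h
    simp only [H192.TA.dq, Set.mem_ofPred_eq] at this
    omega
  · exact ⟨Or.inl rfl, Or.inr (by rw [h2]; simp)⟩

/-- The colour `c` does not cross iff the colour `!c` joins the two rays. -/
theorem Xc_compl (hr : 1 ≤ r) (hrR : r ≤ R) (s : Bool) : (Xc c b r R)ᶜ =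
    CC (!c) (dF b r R) (ray s (!c) b r R) (ray (!s) (!c) b r R) := by
  ext ω
  constructor
  · intro h
    obtain ⟨x, x', h1, h2, h3, h4, h5, h6⟩ := arc_full (F := cs c ω) (b := b) (pr_or c) hr hrR (by
      intro y y' g1 g2 g3 g4
      by_contra h'
      exact h ⟨y, y', g1, g2, g3, g4, by omega⟩)
    rw [cs_compl] at h6
    have hp := h6.parity
    simp only at hp
    have e : 1 - pr c = pr (!c) := (pr_not c).symm
    rw [e] at h5
    have k1 : ((x, b.2) : ℤ × ℤ) ∈ ray false (!c) b r R := by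
      refine ⟨?_, rfl, ?_, h5⟩
      · simp only [sr, Set.mem_ofPred_eq]; omega
      · simp only [sgn, Bool.false_eq_true, if_false]; omega
    have k2 : ((x', b.2) : ℤ × ℤ) ∈ ray true (!c) b r R := by
      refine ⟨?_, rfl, ?_, ?_⟩
      · simp only [sr, Set.mem_ofPred_eq]; omega
      · simp only [sgn, if_true]; omega
      · simp only; omega
    rw [← coe_dF] at h6
    cases s
    · exact ⟨_, k1, _, k2, h6⟩
    · exact ⟨_, k2, _, k1, Pw.symm h6⟩
  · rintro ⟨u, hu, v, hv, h⟩ hx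
    rw [coe_dF] at h
    refine no_cross (c := !c) hr hrR ?_ hu hv h
    rw [Bool.not_not]
    exact hx

theorem Pr_cp (hQ : 0 < Q) (E : Set Cfg) : Pr Q D η E = 1 - Pr Q D η Eᶜ := by
  have := Pr_compl (Q := Q) (D := D) (η := η) hQ E
  linarith

theorem Xc_empty (h : R < r) : Xc c b r R = ∅ := by
  ext ω
  simp only [Set.mem_empty_iff_false, iff_false]
  rintro ⟨y, y', h1, -⟩
  simp only [sr, Set.mem_ofPred_eq] at h1
  omega

theorem pX_nonneg (hQ : Kit Q) : 0 ≤ pX Q c b r R := Pr_nonneg hQ.pos _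

/-- **The worst configuration outside** is the one of the colour `!c`. -/
theorem Xc_le (hQ : Kit Q) (hr : 1 ≤ r) (hD : dF b r R ⊆ D) (hη : Good η) :
    Pr Q D η (Xc c b r R) ≤ pX Q c b r R := by
  by_cases hrR : r ≤ R
  · unfold pX
    rw [Pr_cp hQ.pos, Pr_cp (η := etac (!c)) hQ.pos, Xc_compl hr hrR false]
    have := worst_c (c := !c) hQ.pos hQ.le hη (conn_bs (b := b) (R := R) hr) ray_bs ray_bs hD
      (A := ray false (!c) b r R) (B := ray (!false) (!c) b r R)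
    linarith
  · have e : Pr Q D η (Xc c b r R) = 0 := by
      rw [Xc_empty (by omega)]
      unfold Pr
      simp only [Set.indicator_empty]
      exact Ex_const hQ.pos 0
    rw [e]
    exact pX_nonneg hQ

/-- Crossings in any domain, with a factor which does not depend on the half annulus. -/
theorem ex_Xc_le (hQ : Kit Q) (hr : 1 ≤ r) (hD : dF b r R ⊆ D) (hη : Good η)
    (hG0 : ∀ ω, 0 ≤ G ω) (hG : Ind (dF b r R) G) :
    Ex Q D η (fun ω => G ω * (Xc c b r R).indicator 1 ω) ≤ pX Q c b r R * Ex Q D η G := by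
  have hQ0 := hQ.pos
  rw [markov f_markov hQ0 (A := dF b r R) hD hη hG, ← Ex_mul_left]
  refine Ex_mono hQ0 fun S _ => ?_
  rw [mul_comm (pX Q c b r R)]
  exact mul_le_mul_of_nonneg_left (Xc_le hQ hr subset_rfl (f_good.1 D η S hη)) (hG0 _)

theorem pX_anti (hQ : Kit Q) {R' : ℤ} (hr : 1 ≤ r) (h2 : r ≤ R') (h3 : R' ≤ R) :
    pX Q c b r R ≤ pX Q c b r R' :=
  (Pr_mono hQ.pos (Xc_restrict le_rfl h2 h3)).trans
    (Xc_le hQ hr (dF_mono le_rfl h3) (good_etac (!c)))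

theorem pX_anti' (hQ : Kit Q) {r' : ℤ} (hr : 1 ≤ r) (h2 : r ≤ r') (h3 : r' ≤ R) :
    pX Q c b r R ≤ pX Q c b r' R :=
  (Pr_mono hQ.pos (Xc_restrict h2 h3 le_rfl)).trans
    (Xc_le hQ (by omega) (dF_mono h2 le_rfl) (good_etac (!c)))

theorem pX_mul (hQ : Kit Q) {m : ℤ} (hr : 1 ≤ r) (h1 : r ≤ m) (h2 : m ≤ R) :
    pX Q c b r R ≤ pX Q c b r m * pX Q c b m R := by
  have hQ0 := hQ.pos
  have k1 : pX Q c b r R ≤ Ex Q (dF b r R) (etac (!c)) (fun ω => (Xc c b m R).indicator 1 ω *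
      (Xc c b r m).indicator 1 ω) := by
    refine Ex_mono hQ0 fun S _ => ?_
    rw [← ind_inter]
    exact H519.ind_le_of_imp fun h => ⟨Xc_restrict h1 h2 le_rfl h, Xc_restrict le_rfl h1 h2 h⟩
  have k2 := ex_Xc_le (c := c) (b := b) (r := r) (R := m) hQ hr (dF_mono le_rfl h2)
    (good_etac (!c)) (D := dF b r R) (G := (Xc c b m R).indicator 1) (fun _ => ind_nonneg _ _)
    ((loc_Xc (c := c) (b := b) (r := m) (R := R)).ind (by
      rw [Finset.disjoint_left]
      intro v hv hv'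
      have a1 := mem_dF.1 hv
      have a2 := mem_dF.1 hv'
      simp only [H192.TA.dq, Set.mem_ofPred_eq] at a1 a2
      omega))
  exact (k1.trans k2).trans (mul_le_mul_of_nonneg_left
    (Xc_le hQ (by omega) (dF_mono h1 le_rfl) (good_etac (!c))) (pX_nonneg hQ))

/-- The probability of the old definition is smaller. -/
theorem pX_old_le (hQ : Kit Q) (hr : 1 ≤ r) : Vale.Agent.P167.H192.Q.pX Q c b r R ≤ pX Q c b r R :=
  Xc_le hQ hr subset_rfl (good_etac c)

/-! ### Duality and the rate -/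

theorem pX_dual (hQ : Kit Q) : pX Q c b r R ≤ pX Q (!c) (sq1 b) r R := by
  have hQ0 := hQ.pos
  have e1 : du (etac (!c)) = etac c := by
    funext v
    cases c <;> rfl
  unfold pX Pr
  rw [ex_du hQ (good_etac (!c)), im_dF, e1, Bool.not_not]
  refine Ex_mono hQ0 fun S _ => ?_
  generalize cf (dF (sq1 b) r R) (etac c) S = ω
  by_cases h : H519.dui ω ∈ Xc c b r R
  · have h' : ω ∈ Xc (!c) (sq1 b) r R := by
      obtain ⟨y, y', g1, g2, g3, g4, g5⟩ := h
      have key : ∀ u v, Pw (cs c (H519.dui ω) ∩ H192.TA.dq b r R) u v →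
          Pw (cs (!c) ω ∩ H192.TA.dq (sq1 b) r R) (u.1 + 1, u.2) (v.1 + 1, v.2) := by
        intro u v h
        induction h with
        | refl => exact ReflTransGen.refl
        | @tail x y _ hxy ih =>
          obtain ⟨h1, h2, h3, h4⟩ := hxy
          refine ih.tail ⟨by dsimp only; omega, h2, ?_⟩
          have e : min (x.1 + 1) (y.1 + 1) = min x.1 y.1 + 1 := by omega
          dsimp only
          rw [e]
          refine ⟨?_, ?_⟩
          · have h5 : (!(ω (min x.1 y.1 + 1, min x.2 y.2))) = c := h3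
            show ω (min x.1 y.1 + 1, min x.2 y.2) = !c
            rw [← h5, Bool.not_not]
          · simp only [H192.TA.dq, sq1, Set.mem_ofPred_eq] at h4 ⊢
            omega
      refine ⟨(y.1 + 1, y.2), (y'.1 + 1, y'.2), ?_, ?_, ?_, key _ _ g4, ?_⟩
      · simp only [sr, sq1, Set.mem_ofPred_eq] at g1 ⊢
        omega
      · rw [pr_not]
        rcases pr_or c with e | e <;> rw [e] at g2 ⊢ <;> dsimp only <;> omega
      · have e : ((y.1 + 1, y.2) : ℤ × ℤ) - sq1 b = y - b := by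
          refine Prod.ext ?_ ?_ <;> simp [sq1]
        rw [e]; exact g3
      · have e : ((y'.1 + 1, y'.2) : ℤ × ℤ) - sq1 b = y' - b := by
          refine Prod.ext ?_ ?_ <;> simp [sq1]
        rw [e]; exact g5
    rw [Set.indicator_of_mem h, Set.indicator_of_mem h']
    exact le_refl (1 : ℝ)
  · rw [Set.indicator_of_notMem h]
    exact ind_nonneg _ _

theorem dF_half : ∀ v ∈ H635.Ann b r R, v ∈ dF b r R ↔ b.2 ≤ v.2 := by
  intro v hv
  obtain ⟨h1, h2⟩ := H635.mem_Ann.1 hv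
  rw [H635.mem_Bq] at h1 h2
  rw [mem_dF]
  simp only [H192.TA.dq, Set.mem_ofPred_eq]
  omega

theorem dF_inter : dF b r R ∩ H635.Ann b r R = dF b r R := by
  ext v
  rw [Finset.mem_inter]
  refine ⟨fun h => h.1, fun h => ⟨h, ?_⟩⟩
  have := mem_dF.1 h
  simp only [H192.TA.dq, Set.mem_ofPred_eq] at this
  rw [H635.mem_Ann, H635.mem_Bq, H635.mem_Bq]
  omega

theorem arm_of_Xc {ω : Cfg} (h : ω ∈ Xc true b r R) : ArmPx b r R ω := by
  obtain ⟨y, y', g1, g2, g3, g4, g5⟩ := h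
  refine ⟨y, y', even_iff_pr.2 g2, g3, g5, ?_⟩
  have h1 := g4.pconn g1
  have hsub : sr b r R ⊆ {w | nm (w - b) ≤ R} := by
    intro w hw
    simp only [sr, Set.mem_ofPred_eq] at hw ⊢
    rw [nm_le]
    simp only [Prod.fst_sub, Prod.snd_sub]
    omega
  rw [cs_true] at h1
  exact h1.mono subset_rfl hsub

/-- **The rate.** -/
theorem pX_dec' (hQ : Kit Q) : ∃ α C : ℝ, 0 < α ∧ 0 < C ∧
    ∀ (c : Bool) (b : ℤ × ℤ) (r R : ℤ), 1 ≤ r → r ≤ R → pX Q c b r R ≤ C * ((r : ℝ) / R) ^ α := by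
  obtain ⟨α, C, hα, hC, h⟩ := hQ.armShp
  have key : ∀ (b : ℤ × ℤ) (r R : ℤ), 1 ≤ r → r ≤ R → pX Q true b r R ≤ C * ((r : ℝ) / R) ^ α := by
    intro b r R hr hrR
    have h1 := h b r R (dF b r R) hr hrR (H635.shp_ge2 dF_half) (etac false) (good_etac false)
      (fun v _ _ => rfl)
    rw [dF_inter] at h1
    exact (Pr_mono hQ.pos fun ω hω => arm_of_Xc hω).trans h1
  refine ⟨α, C, hα, hC, fun c b r R hr hrR => ?_⟩
  cases c
  · exact (pX_dual hQ).trans (key _ r R hr hrR)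
  · exact key b r R hr hrR

/-- The same with the name and the arguments of the old statement. -/
theorem pX_dec (hQ : Kit Q) (_hS : SRSW Q) : ∃ α C : ℝ, 0 < α ∧ 0 < C ∧
    ∀ (c : Bool) (b : ℤ × ℤ) (r R : ℤ), 1 ≤ r → r ≤ R → pX Q c b r R ≤ C * ((r : ℝ) / R) ^ α :=
  pX_dec' hQ

theorem exists_ratio {α C ε : ℝ} (hα : 0 < α) (hC : 0 < C) (hε : 0 < ε) : ∃ L : ℤ, 2 ≤ L ∧
    ∀ r R : ℤ, 1 ≤ r → L * r ≤ R → C * ((r : ℝ) / R) ^ α ≤ ε := by
  have h3 : Filter.Tendsto (fun x : ℝ => C * (1 / x) ^ α) Filter.atTop (nhds (C * 0)) := by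
    refine Filter.Tendsto.const_mul C ?_
    have := tendsto_rpow_neg_atTop hα
    refine this.congr' ?_
    filter_upwards [Filter.eventually_gt_atTop 0] with x hx
    rw [Real.rpow_neg hx.le, one_div, Real.inv_rpow hx.le]
  rw [mul_zero] at h3
  have h4 : ∀ᶠ x : ℝ in Filter.atTop, C * (1 / x) ^ α ≤ ε := h3.eventually (ge_mem_nhds hε)
  obtain ⟨X, hX⟩ := Filter.eventually_atTop.1 h4
  set L : ℤ := max 2 ⌈X⌉ with hL
  have hL2 : 2 ≤ L := le_max_left _ _
  have hLX : X ≤ (L : ℝ) := (Int.le_ceil X).trans (by exact_mod_cast le_max_right _ _)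
  refine ⟨L, hL2, fun r R hr hR => ?_⟩
  refine le_trans (mul_le_mul_of_nonneg_left (Real.rpow_le_rpow ?_ ?_ hα.le) hC.le) (hX _ hLX)
  · have : (0 : ℝ) < r := by exact_mod_cast (by omega : 0 < r)
    have : (0 : ℝ) < R := by exact_mod_cast (by nlinarith : 0 < R)
    positivity
  · have hr0 : (0 : ℝ) < r := by exact_mod_cast (by omega : 0 < r)
    have hR0 : (0 : ℝ) < R := by exact_mod_cast (by nlinarith : 0 < R)
    have hL0 : (0 : ℝ) < L := by exact_mod_cast (by omega : 0 < L)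
    rw [div_le_div_iff₀ hR0 hL0, one_mul, mul_comm]
    exact_mod_cast hR

/-- A scale ratio for which the crossing probabilities are at most `ε`. -/
theorem pX_small (hQ : Kit Q) {ε : ℝ} (hε : 0 < ε) : ∃ Λ : ℤ, 2 ≤ Λ ∧
    ∀ (c : Bool) (b : ℤ × ℤ) (r R : ℤ), 1 ≤ r → Λ * r ≤ R → pX Q c b r R ≤ ε := by
  obtain ⟨α, C, hα, hC, h⟩ := pX_dec' hQ
  obtain ⟨L, hL2, hL⟩ := exists_ratio hα hC hε
  exact ⟨L, hL2, fun c b r R hr hR =>
    (h c b r R hr (by nlinarith)).trans (hL r R hr hR)⟩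

/-- Instead of `SRSW` and `pX_all`. -/
theorem pX_all (hQ : Kit Q) : ∃ (Λ : ℤ) (c0 : ℝ), 2 ≤ Λ ∧ 0 < c0 ∧ c0 ≤ 1 / 2 ∧
    ∀ (c : Bool) (b : ℤ × ℤ) (r : ℤ), 1 ≤ r → pX Q c b r (Λ * r) ≤ 1 - c0 := by
  obtain ⟨Λ, h1, h2⟩ := pX_small hQ (ε := 1 / 2) (by norm_num)
  exact ⟨Λ, 1 / 2, h1, by norm_num, le_refl _, fun c b r hr => by
    have := h2 c b r (Λ * r) hr le_rfl
    linarith⟩

end Vale.Agent.P167.N.H192.Q
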