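import Vale.Agent.P167.N.H192.Q.RatC
import Vale.Agent.P167.N.H192.Q.Fresh
import Vale.Agent.P167.N.H192.Q.PX
import Vale.Agent.P167.H192.Q.Arm2

/-!
# P167, `0 < q < 1`: the two-arm bound at a flat side, both stages
-/

set_option autoImplicit false

namespace Vale.Agent.P167.N.H192.Q

open Finset Relation Vale.Agent.P167 Vale.Agent.P167.FK Vale.Agent.P167.FKA Vale.Agent.P167.H192.TA
  Vale.Agent.P167.H632 Vale.Agent.P167.H558 Vale.Agent.P167.H871 Vale.Agent.P167.H365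
  Vale.Agent.P167.H192.Q
open Vale.Agent.P145.FB (PStep PConn)

variable {Q : ℝ} {D A : Finset (ℤ × ℤ)} {η η' : Cfg} {F G : Cfg → ℝ} {c : Bool} {b : ℤ × ℤ}
  {r R m1 m2 : ℤ}

/-! ### Both stages -/

theorem stagesQ (hQ : Kit Q) (hr : 1 ≤ r) (h1 : r < m1) (h12 : m1 ≤ m2) (h2 : m2 ≤ R) {p : ℝ}
    (hp1 : p ≤ 1) (hX1 : ∀ c, pX Q c b r m1 ≤ p) (hX2 : ∀ c, pX Q c b m2 R ≤ p)
    (hD : dF b r R ⊆ D) (hη : Good η) :
    (1 - p) ^ 4 * Pr Q D η {ω | Y1 c b r R ω} ≤ Pr Q D η (E3 c b r R m1 m2) := by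
  have hQ0 := hQ.pos
  have k1 := stageQ hQ (s := false) (c := c) hr h1 h12 h2 hp1 (hX1 c) (hX2 c) hD hη
    (past_Y1 c b r R) (fun ω h => h.1)
  have k2 := stageQ hQ (s := true) (c := !c) hr h1 h12 h2 hp1 (hX1 _) (hX2 _) hD hη
    (past_Y2 (!c) b (m1 := m1) (m2 := m2) hr (by omega)) (fun ω h => h.1)
  rw [Bool.not_false] at k1
  rw [Bool.not_true, Bool.not_not] at k2
  have k3 : Pr Q D η ({ω | Y1 c b r R ω} ∩ Pe true (!c) b r R m1 m2) ≤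
      Pr Q D η {ω | Y2 (!c) b r R m1 m2 ω} := by
    refine Pr_mono hQ0 ?_
    rintro ω ⟨g1, g2⟩
    refine Y2_of hr (by omega) g2 ?_
    rw [Bool.not_not]
    exact Xc_of_Y1 g1
  have k4 : Pr Q D η ({ω | Y2 (!c) b r R m1 m2 ω} ∩ Pe false c b r R m1 m2) ≤
      Pr Q D η (E3 c b r R m1 m2) := by
    refine Pr_mono hQ0 ?_
    rintro ω ⟨g1, g2⟩
    exact ⟨Pe_of_Y2 g1, g2⟩
  have hp0 : 0 ≤ (1 - p) ^ 2 := by positivity
  calc (1 - p) ^ 4 * Pr Q D η {ω | Y1 c b r R ω}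
      = (1 - p) ^ 2 * ((1 - p) ^ 2 * Pr Q D η {ω | Y1 c b r R ω}) := by ring
    _ ≤ (1 - p) ^ 2 * Pr Q D η {ω | Y2 (!c) b r R m1 m2 ω} :=
        mul_le_mul_of_nonneg_left (k1.trans k3) hp0
    _ ≤ _ := k2.trans k4

end Vale.Agent.P167.N.H192.Q
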