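import Vale.Agent.P167.N.H192.Q.Arm2
import Vale.Agent.P167.N.MIX.RatK
import Vale.Agent.P167.H192.Q.Arm3

/-!
# P167, `0 < q < 1`: one and two crossings of a half annulus by the interface

`i2q : Kit Q → I2Q Q`, `i3q : Kit Q → I3Q Q`. `Y1_leQ`, `y3_le`, `yf`: the events `Y1`, `Y1 ∩ F3`
in an annulus in the middle of a flat annulus.
-/

set_option autoImplicit false

namespace Vale.Agent.P167.N.H192.Q

open Finset Relation Vale.Agent.P167 Vale.Agent.P167.FK Vale.Agent.P167.FKA Vale.Agent.P167.H192.TA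
  Vale.Agent.P167.H632 Vale.Agent.P167.H558 Vale.Agent.P167.H871 Vale.Agent.P167.H192.Q
open Vale.Agent.P145.FB (PStep PConn)
open Vale.Agent.P167.H259 (f_markov)
open Vale.Agent.P167.H365 (hA TwoS ThrS mem_hA)
open Vale.Agent.P167.N.MIX (RatS RatS4)

variable {Q : ℝ} {D A : Finset (ℤ × ℤ)} {η η' : Cfg} {F G : Cfg → ℝ} {c e : Bool} {b : ℤ × ℤ}
  {r r1 R1 R m1 m2 M : ℤ}

theorem fls_shp (h : FlS e D η b r R) : H635.Shp D b r R :=
  H635.shp_ge2 (c := b.2) fun v hv => (h v hv).1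

/-- Comparison with a half box around another point of the side. -/
theorem to_box (hQ : Kit Q) (hM : RatS4 Q M) (hs : Sc M r r1 R1 R) (hη : Good η)
    (hfl : FlS e D η b r R) {k N : ℤ} (hk0 : 0 ≤ k) (hk : k % 2 = 0) (hN : k + R ≤ N) :
    Pr Q D η (E3 c b r1 R1 m1 m2) ≤
      8 * Pr Q (HBx b N) (etac e) (E3 c (b.1 + k, b.2) r1 R1 m1 m2) := by
  have hQ0 := hQ.pos
  obtain ⟨a1, a2, a3, a4, a5⟩ := hs.le hM.one
  have h0 := hs.h0
  have h2 := hs.h2
  have hdd : dF b r1 R1 ⊆ dF b r R := dF_mono (by omega) (by omega)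
  have k1 : Pr Q D η (E3 c b r1 R1 m1 m2) ≤
      8 * Pr Q (HBx (b.1 - k, b.2) N) (etac e) (E3 c b r1 R1 m1 m2) := by
    refine rat_ann_e e hQ hM hs (V := dF b r1 R1) ?_ (hdd.trans hfl.dF)
      dF_An (fun _ => ind_nonneg _ _) loc_E3 hη (good_etac e) hfl.sd ?_ (fls_shp hfl)
    · ext v
      rw [Finset.mem_inter, Finset.mem_inter]
      refine and_congr_left fun hv => ?_
      rw [(hfl v hv).1, mem_HBx]
      rw [mem_An] at hv
      dsimp only
      omega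
    · intro v _ _
      rfl
  refine k1.trans ?_
  refine mul_le_mul_of_nonneg_left ?_ (by norm_num)
  have hsy := sy_tr (k, 0) (by rw [Int.even_iff]; dsimp only; omega)
  have e1 : etac e ∘ (fun v : ℤ × ℤ => (v.1 + (k, (0 : ℤ)).1, v.2 + (k, (0 : ℤ)).2)) = etac e := by
    funext v
    rfl
  have e2 : (HBx (b.1 - k, b.2) N).image
      (fun v : ℤ × ℤ => (v.1 + (k, (0 : ℤ)).1, v.2 + (k, (0 : ℤ)).2)) = HBx b N := by
    ext v
    rw [Finset.mem_image, mem_HBx]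
    constructor
    · rintro ⟨w, hw, rfl⟩
      rw [mem_HBx] at hw
      dsimp only at hw ⊢
      omega
    · intro hv
      refine ⟨(v.1 - k, v.2), ?_, ?_⟩
      · rw [mem_HBx]
        dsimp only
        omega
      · refine Prod.ext ?_ ?_ <;> dsimp only <;> omega
  have h3 := hsy.2 Q (HBx (b.1 - k, b.2) N) (etac e) ((E3 c b r1 R1 m1 m2).indicator 1) hQ0
    (good_etac e)
  rw [e1, e2] at h3
  unfold Pr
  rw [h3]
  refine Ex_mono hQ0 fun S _ => ?_
  refine ind_imp2 ?_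
  intro h
  have e3 : ∀ ω : Cfg, (ω ∘ fun v : ℤ × ℤ => (v.1 + (k, (0 : ℤ)).1, v.2 + (k, (0 : ℤ)).2)) =
      fun w => ω (w.1 + k, w.2) := by
    intro ω
    funext w
    show ω (w.1 + k, w.2 + 0) = ω (w.1 + k, w.2)
    rw [add_zero]
  rw [e3] at h
  exact ⟨Pe_shift hk h.1, Pe_shift hk h.2⟩

/-- **Counting.** -/
theorem E3_count (hQ : Kit Q) (hM : RatS4 Q M) (hs : Sc M r r1 R1 R) (hη : Good η)
    (hfl : FlS e D η b r R) (hm : 0 ≤ m1) (n : ℕ) (hn : (2 * m1 + 2) * n ≤ m2) :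
    (n : ℝ) * Pr Q D η (E3 c b r1 R1 m1 m2) ≤ 8 := by
  have hQ0 := hQ.pos
  obtain ⟨a1, a2, a3, a4, a5⟩ := hs.le hM.one
  have h2 := hs.h2
  set s : ℤ := 2 * m1 + 2 with hsd
  have hs2 : 2 ≤ s := by omega
  have k1 : ∀ j ∈ Finset.range n, Pr Q D η (E3 c b r1 R1 m1 m2) ≤
      8 * Pr Q (HBx b (s * n + R)) (etac e) (E3 c (b.1 + s * j, b.2) r1 R1 m1 m2) := by
    intro j hj
    rw [Finset.mem_range] at hj
    have hj' : (j : ℤ) ≤ n := by exact_mod_cast hj.le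
    refine to_box hQ hM hs hη hfl (by positivity) ?_ ?_
    · rw [hsd]
      have e : (2 * m1 + 2) * (j : ℤ) = 2 * ((m1 + 1) * j) := by ring
      rw [e]
      omega
    · have := mul_le_mul_of_nonneg_left hj' (show 0 ≤ s by omega)
      linarith
  have k2 := Finset.sum_le_sum k1
  rw [Finset.sum_const, Finset.card_range, nsmul_eq_mul, ← Finset.mul_sum] at k2
  refine k2.trans ?_
  have k3 : ∑ j ∈ Finset.range n, Pr Q (HBx b (s * n + R)) (etac e)
      (E3 c (b.1 + s * j, b.2) r1 R1 m1 m2) ≤ 1 := by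
    unfold Pr
    rw [← Ex_sum, ← Ex_const (Q := Q) (D := HBx b (s * n + R)) (η := etac e) hQ0 1]
    refine Ex_mono hQ0 fun S _ => ?_
    refine sum_ind_le fun i j hij hj h h' => ?_
    have hij' : (i : ℤ) + 1 ≤ j := by exact_mod_cast hij
    have hj' : (j : ℤ) ≤ n := by exact_mod_cast hj.le
    have hi0 : (0 : ℤ) ≤ i := by positivity
    refine E3_disjQ (b := (b.1 + s * i, b.2)) (m := s * (j - i)) a3 hm (by nlinarith)
      (by nlinarith) (by omega) h ?_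
    have e : b.1 + s * i + s * (j - i) = b.1 + s * (j : ℤ) := by ring
    dsimp only
    rw [e]
    exact h'
  linarith

/-! ### The event `Y1` -/

theorem Y1_leQ (hQ : Kit Q) (hM : RatS4 Q M) : ∃ C : ℝ, 0 < C ∧
    ∀ (e c : Bool) (D : Finset (ℤ × ℤ)) (η : Cfg) (b : ℤ × ℤ) (r r1 R1 R : ℤ),
      Sc M r r1 R1 R → Good η → FlS e D η b r R →
      Pr Q D η {ω | Y1 c b r1 R1 ω} ≤ C * ((r1 : ℝ) / R1) := by
  have hQ0 := hQ.pos
  obtain ⟨Λ, c0, hΛ, hc0, -, hX⟩ := pX_all hQ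
  have hΛ' : (2 : ℝ) ≤ Λ := by exact_mod_cast hΛ
  refine ⟨4 * Λ ^ 2 * max 1 (16 / c0 ^ 4), by positivity, fun e c D η b r r1 R1 R hs hη hfl => ?_⟩
  obtain ⟨a1, a2, a3, a4, a5⟩ := hs.le hM.one
  have h2 := hs.h2
  have hr' : (1 : ℝ) ≤ r1 := by exact_mod_cast a3
  have hR' : (r1 : ℝ) ≤ R1 := by exact_mod_cast h2
  have hRp : (0 : ℝ) < R1 := by linarith
  have hrp : (0 : ℝ) < r1 := by linarith
  have hmx : 1 ≤ max 1 (16 / c0 ^ 4) := le_max_left _ _
  by_cases hbig : R1 < 4 * Λ ^ 2 * r1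
  · have h1 : (R1 : ℝ) < 4 * Λ ^ 2 * r1 := by exact_mod_cast hbig
    have h3 : (1 : ℝ) ≤ 4 * Λ ^ 2 * (r1 / R1) := by
      rw [← mul_div_assoc, le_div_iff₀ hRp]
      linarith
    calc Pr Q D η {ω | Y1 c b r1 R1 ω} ≤ 1 := Pr_le_one hQ0 _
      _ ≤ 4 * Λ ^ 2 * ((r1 : ℝ) / R1) := h3
      _ = 4 * Λ ^ 2 * 1 * ((r1 : ℝ) / R1) := by ring
      _ ≤ _ := by
        refine mul_le_mul_of_nonneg_right ?_ (by positivity)
        exact mul_le_mul_of_nonneg_left hmx (by positivity)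
  · push Not at hbig
    have hK : 0 < 4 * Λ ^ 2 * r1 := by positivity
    obtain ⟨n, hn⟩ : ∃ n : ℕ, (n : ℤ) = R1 / (4 * Λ ^ 2 * r1) :=
      ⟨(R1 / (4 * Λ ^ 2 * r1)).toNat, Int.toNat_of_nonneg (Int.ediv_nonneg (by omega) hK.le)⟩
    have hn1 : (1 : ℤ) ≤ n := by
      rw [hn, Int.le_ediv_iff_mul_le hK]
      omega
    have hn2 : 4 * Λ ^ 2 * r1 * n ≤ R1 := by
      rw [hn, mul_comm]
      exact Int.ediv_mul_le R1 hK.ne'
    have hn3 : R1 < (n + 1) * (4 * Λ ^ 2 * r1) := by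
      rw [hn]
      exact Int.lt_ediv_add_one_mul_self R1 hK
    have hΛr : 1 ≤ Λ * r1 := by nlinarith
    have hm2 : (2 * (Λ * r1) + 2) * n ≤ R1 / Λ := by
      rw [Int.le_ediv_iff_mul_le (by omega)]
      have h4 : (2 * (Λ * r1) + 2) * n * Λ ≤ 4 * (Λ * r1) * n * Λ := by
        refine mul_le_mul_of_nonneg_right ?_ (by omega)
        exact mul_le_mul_of_nonneg_right (by omega) (by omega)
      have e : 4 * (Λ * r1) * n * Λ = 4 * Λ ^ 2 * r1 * n := by ring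
      rw [e] at h4
      exact h4.trans hn2
    have hm12 : Λ * r1 ≤ R1 / Λ := by
      have h5 : (2 * (Λ * r1) + 2) * 1 ≤ (2 * (Λ * r1) + 2) * (n : ℤ) :=
        mul_le_mul_of_nonneg_left hn1 (by omega)
      omega
    have hm2R : R1 / Λ ≤ R1 := Int.ediv_le_self _ (by omega)
    have hd : Λ * (R1 / Λ) ≤ R1 := Int.mul_ediv_self_le (by omega)
    have hXr : ∀ c, pX Q c b r1 (Λ * r1) ≤ 1 - c0 := fun c => hX c b _ a3
    have hXR : ∀ c, pX Q c b (R1 / Λ) R1 ≤ 1 - c0 := fun c =>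
      (pX_anti hQ (by omega) (by nlinarith) hd).trans (hX c b _ (by omega))
    have h3 := stagesQ (c := c) hQ a3 (m1 := Λ * r1) (m2 := R1 / Λ) (p := 1 - c0) (by nlinarith)
      hm12 hm2R (by linarith) hXr hXR ((dF_mono (by omega) (by omega)).trans hfl.dF) hη
    rw [sub_sub_cancel] at h3
    have h4 := E3_count (c := c) hQ hM hs hη hfl (m1 := Λ * r1) (m2 := R1 / Λ) (by omega) n hm2
    have hnp : (0 : ℝ) < n := by exact_mod_cast (by omega : (0 : ℤ) < n)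
    have hn4 : (R1 : ℝ) ≤ 2 * n * (4 * Λ ^ 2 * r1) := by
      have h5 : R1 ≤ 2 * n * (4 * Λ ^ 2 * r1) := by
        refine hn3.le.trans ?_
        exact mul_le_mul_of_nonneg_right (by omega) hK.le
      exact_mod_cast h5
    have h5 : c0 ^ 4 * Pr Q D η {ω | Y1 c b r1 R1 ω} ≤ 8 / n := by
      refine h3.trans ?_
      rw [le_div_iff₀ hnp]
      linarith
    have h6 : (8 : ℝ) / n ≤ 16 * (4 * Λ ^ 2) * (r1 / R1) := by
      rw [← mul_div_assoc, div_le_div_iff₀ hnp hRp]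
      linarith
    have h7 : Pr Q D η {ω | Y1 c b r1 R1 ω} ≤ 16 * (4 * Λ ^ 2) * (r1 / R1) / c0 ^ 4 := by
      rw [le_div_iff₀ (by positivity)]
      linarith
    refine h7.trans ?_
    have e : 16 * (4 * Λ ^ 2) * ((r1 : ℝ) / R1) / c0 ^ 4 =
        4 * Λ ^ 2 * (16 / c0 ^ 4) * (r1 / R1) := by
      ring
    rw [e]
    refine mul_le_mul_of_nonneg_right ?_ (by positivity)
    exact mul_le_mul_of_nonneg_left (le_max_right _ _) (by positivity)

/-! ### The third arm -/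

theorem three_leQ (hQ : Kit Q) (hr : 1 ≤ r) (hD : dF b r R ⊆ D) (hη : Good η) :
    Pr Q D η ({ω | Y1 c b r R ω} ∩ F3 c b r R) ≤
      pX Q c b r R * Pr Q D η {ω | Y1 c b r R ω} := by
  have hQ0 := hQ.pos
  by_cases hrR : r ≤ R
  swap
  · have e : ({ω | Y1 c b r R ω} ∩ F3 c b r R : Set Cfg) = ∅ := by
      ext ω
      simp only [Set.mem_empty_iff_false, iff_false]
      rintro ⟨-, y0, y1, g1, g2, -⟩
      simp only [sr, Set.mem_ofPred_eq] at g2
      omega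
    have e2 : Pr Q D η ({ω | Y1 c b r R ω} ∩ F3 c b r R) = 0 := by
      rw [e]
      unfold Pr
      simp only [Set.indicator_empty]
      exact Ex_const hQ0 0
    rw [e2]
    exact mul_nonneg (pX_nonneg hQ) (Pr_nonneg hQ0 _)
  set O : Cfg → Finset (ℤ × ℤ) := fun ω => Rl c b r R (ray false c b r R) ω with hO
  have hst : StopSet O := stop_Rl
  have hG : Past O ({ω | Y1 c b r R ω}.indicator (1 : Cfg → ℝ)) := by
    intro ω ω' h
    have h3 : Y1 c b r R ω' = Y1 c b r R ω := past_Y1 c b r R ω ω' h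
    have h4 : ω' ∈ {ω | Y1 c b r R ω} ↔ ω ∈ {ω | Y1 c b r R ω} := by
      show Y1 c b r R ω' ↔ Y1 c b r R ω
      rw [h3]
    by_cases h5 : ω ∈ {ω | Y1 c b r R ω}
    · rw [Set.indicator_of_mem h5, Set.indicator_of_mem (h4.2 h5)]
      rfl
    · rw [Set.indicator_of_notMem h5, Set.indicator_of_notMem fun h6 => h5 (h4.1 h6)]
  have h1 : Pr Q D η ({ω | Y1 c b r R ω} ∩ F3 c b r R) ≤
      Ex Q D η (fun ω => {ω | Y1 c b r R ω}.indicator 1 ω *
        (Bk false c (O ω) b r R)ᶜ.indicator 1 ω) := by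
    refine Ex_mono hQ0 fun S _ => ?_
    rw [ind_inter]
    refine mul_le_mul_of_nonneg_left ?_ (ind_nonneg _ _)
    exact ind_imp2 fun h => Xo_not_Bk hr hrR rfl (Xo_of_F3 h)
  refine h1.trans ?_
  rw [stop_markov hQ0 hη hst hG (fun ω => (Rl_sub ω).trans hD)]
  unfold Pr
  rw [← Ex_mul_left]
  refine Ex_mono hQ0 fun S _ => ?_
  rw [mul_comm (pX Q c b r R)]
  refine mul_le_mul_of_nonneg_left ?_ (ind_nonneg _ _)
  set ω := cf D η S with hω
  have hg : Good ω := f_good.1 D η S hη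
  have h2 : Ex Q (D \ O ω) ω (fun ω' => (Bk false c (O ω') b r R)ᶜ.indicator 1 ω') =
      Ex Q (D \ O ω) ω ((Bk false c (O ω) b r R)ᶜ.indicator 1) := by
    refine Ex_congr fun T _ => ?_
    have h5 : O (cf (D \ O ω) ω T) = O ω := hst ω _ fun i hi => by
      rw [cf_out fun h => (Finset.mem_sdiff.1 h).2 hi]
    rw [h5]
  rw [h2]
  have h3 := bk_ge (c := c) (b := b) (O := O ω) (D := D \ O ω) hQ false hr hrR hg
    (Finset.sdiff_subset_sdiff hD le_rfl)
  have h4 := Pr_compl (Q := Q) (D := D \ O ω) (η := ω) hQ0 (Bk false c (O ω) b r R)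
  unfold Pr at h3 h4
  rw [h4]
  linarith

/-! ### The events -/

theorem two_core (hQ : Kit Q) (hM : RatS4 Q M) : ∃ C : ℝ, 0 < C ∧
    ∀ (e : Bool) (D : Finset (ℤ × ℤ)) (η : Cfg) (b : ℤ × ℤ) (r R : ℤ), Good η →
      FlatA e D η b r R → 1 ≤ r → r ≤ R →
      Pr Q D η {ω | TwoS b r R ω} ≤ C * ((r : ℝ) / R) := by
  have hQ0 := hQ.pos
  obtain ⟨C, hC, hY⟩ := Y1_leQ hQ hM
  have hM1 := hM.one
  have hM1' : (1 : ℝ) ≤ M := by exact_mod_cast hM1
  refine ⟨max (4 * M ^ 4) (2 * (C * (2 * M ^ 4))), by positivity,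
    fun e D η b r R hη hfl hr hrR => ?_⟩
  have hr' : (1 : ℝ) ≤ r := by exact_mod_cast hr
  have hR' : (r : ℝ) ≤ R := by exact_mod_cast hrR
  have hRp : (0 : ℝ) < R := by linarith
  by_cases hbig : R < 4 * M ^ 4 * r
  · have h1 : (R : ℝ) < 4 * M ^ 4 * r := by exact_mod_cast hbig
    calc Pr Q D η {ω | TwoS b r R ω} ≤ 1 := Pr_le_one hQ0 _
      _ ≤ 4 * M ^ 4 * ((r : ℝ) / R) := by
        rw [← mul_div_assoc, le_div_iff₀ hRp]
        linarith
      _ ≤ _ := mul_le_mul_of_nonneg_right (le_max_left _ _) (by positivity)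
  · push Not at hbig
    obtain ⟨hs, h1, h2⟩ := scale hM1 hr hbig
    obtain ⟨a1, a2, a3, a4, a5⟩ := hs.le hM1
    set r1 := M * (M * r) with hr1
    set R1 := R / (M * M) with hR1
    have h3 : Pr Q D η {ω | TwoS b r R ω} ≤
        Pr Q D η {ω | Y1 true b r1 R1 ω} + Pr Q D η {ω | Y1 false b r1 R1 ω} := by
      unfold Pr
      rw [← Ex_add]
      refine Ex_mono hQ0 fun S _ => ?_
      by_cases h4 : cf D η S ∈ {ω | TwoS b r R ω}
      · rw [Set.indicator_of_mem h4]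
        obtain ⟨k1, k2⟩ := hx_of_twoS hrR h4
        rcases two_sub a3 h1 (HX_restrict (by omega) (by omega) (by omega) k1)
          (HX_restrict (by omega) (by omega) (by omega) k2) with h | h
        · rw [Set.indicator_of_mem (show cf D η S ∈ {ω | Y1 true b r1 R1 ω} from h)]
          have := ind_nonneg {ω | Y1 false b r1 R1 ω} (cf D η S)
          simp only [Pi.one_apply]
          linarith
        · rw [Set.indicator_of_mem (show cf D η S ∈ {ω | Y1 false b r1 R1 ω} from h)]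
          have := ind_nonneg {ω | Y1 true b r1 R1 ω} (cf D η S)
          simp only [Pi.one_apply]
          linarith
      · rw [Set.indicator_of_notMem h4]
        exact add_nonneg (ind_nonneg _ _) (ind_nonneg _ _)
    have h4 : ∀ c, Pr Q D η {ω | Y1 c b r1 R1 ω} ≤ C * (2 * M ^ 4 * ((r : ℝ) / R)) := fun c =>
      (hY e c D η b r r1 R1 R hs hη hfl.fls).trans (mul_le_mul_of_nonneg_left h2 hC.le)
    calc Pr Q D η {ω | TwoS b r R ω} ≤ _ := h3
      _ ≤ C * (2 * M ^ 4 * ((r : ℝ) / R)) + C * (2 * M ^ 4 * ((r : ℝ) / R)) :=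
        add_le_add (h4 true) (h4 false)
      _ = 2 * (C * (2 * M ^ 4)) * ((r : ℝ) / R) := by ring
      _ ≤ _ := mul_le_mul_of_nonneg_right (le_max_right _ _) (by positivity)

theorem thr_core (hQ : Kit Q) (hM : RatS4 Q M) : ∃ C α : ℝ, 0 < C ∧ 0 < α ∧
    ∀ (e : Bool) (D : Finset (ℤ × ℤ)) (η : Cfg) (b : ℤ × ℤ) (r R : ℤ), Good η →
      FlatA e D η b r R → 1 ≤ r → r ≤ R →
      Pr Q D η {ω | ThrS b r R ω} ≤ C * ((r : ℝ) / R) ^ (1 + α) := by
  have hQ0 := hQ.pos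
  obtain ⟨C, hC, hY⟩ := Y1_leQ hQ hM
  obtain ⟨α, C1, hα, hC1, hX⟩ := pX_dec' hQ
  have hM1 := hM.one
  have hM1' : (1 : ℝ) ≤ M := by exact_mod_cast hM1
  refine ⟨max ((4 * M ^ 4) ^ (1 + α)) (2 * (C1 * C * (2 * M ^ 4) ^ (1 + α))), α, by positivity, hα,
    fun e D η b r R hη hfl hr hrR => ?_⟩
  have hr' : (1 : ℝ) ≤ r := by exact_mod_cast hr
  have hR' : (r : ℝ) ≤ R := by exact_mod_cast hrR
  have hRp : (0 : ℝ) < R := by linarith
  have hq : 0 < (r : ℝ) / R := by positivity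
  by_cases hbig : R < 4 * M ^ 4 * r
  · have h1 : (R : ℝ) < 4 * M ^ 4 * r := by exact_mod_cast hbig
    have h4 : 1 ≤ 4 * (M : ℝ) ^ 4 * ((r : ℝ) / R) := by
      rw [← mul_div_assoc, le_div_iff₀ hRp]
      linarith
    calc Pr Q D η {ω | ThrS b r R ω} ≤ 1 := Pr_le_one hQ0 _
      _ ≤ (4 * M ^ 4 * ((r : ℝ) / R)) ^ (1 + α) := Real.one_le_rpow h4 (by linarith)
      _ = (4 * M ^ 4) ^ (1 + α) * ((r : ℝ) / R) ^ (1 + α) := Real.mul_rpow (by positivity) hq.le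
      _ ≤ _ := mul_le_mul_of_nonneg_right (le_max_left _ _) (by positivity)
  · push Not at hbig
    obtain ⟨hs, h1, h2⟩ := scale hM1 hr hbig
    obtain ⟨a1, a2, a3, a4, a5⟩ := hs.le hM1
    set r1 := M * (M * r) with hr1
    set R1 := R / (M * M) with hR1
    have hr1p : (0 : ℝ) < r1 := by exact_mod_cast (by omega : 0 < r1)
    have hR1p : (0 : ℝ) < R1 := by exact_mod_cast (by omega : 0 < R1)
    have h3 : Pr Q D η {ω | ThrS b r R ω} ≤
        Pr Q D η ({ω | Y1 true b r1 R1 ω} ∩ F3 true b r1 R1) +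
          Pr Q D η ({ω | Y1 false b r1 R1 ω} ∩ F3 false b r1 R1) := by
      unfold Pr
      rw [← Ex_add]
      refine Ex_mono hQ0 fun S _ => ?_
      by_cases h4 : cf D η S ∈ {ω | ThrS b r R ω}
      · rw [Set.indicator_of_mem h4]
        have ht : TwoS b r R (cf D η S) := by
          obtain ⟨e, -, -, he, -⟩ := h4
          exact ⟨e, he⟩
        have h5 : ∀ c, cf D η S ∈ F3 c b r1 R1 := fun c =>
          F3_restrict hr (by omega) (by omega) (by omega) h4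
        obtain ⟨k1, k2⟩ := hx_of_twoS hrR ht
        rcases two_sub a3 h1 (HX_restrict (by omega) (by omega) (by omega) k1)
          (HX_restrict (by omega) (by omega) (by omega) k2) with h | h
        · rw [Set.indicator_of_mem (show cf D η S ∈ {ω | Y1 true b r1 R1 ω} ∩ F3 true b r1 R1
            from ⟨h, h5 true⟩)]
          have := ind_nonneg ({ω | Y1 false b r1 R1 ω} ∩ F3 false b r1 R1) (cf D η S)
          simp only [Pi.one_apply]
          linarith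
        · rw [Set.indicator_of_mem (show cf D η S ∈ {ω | Y1 false b r1 R1 ω} ∩ F3 false b r1 R1
            from ⟨h, h5 false⟩)]
          have := ind_nonneg ({ω | Y1 true b r1 R1 ω} ∩ F3 true b r1 R1) (cf D η S)
          simp only [Pi.one_apply]
          linarith
      · rw [Set.indicator_of_notMem h4]
        exact add_nonneg (ind_nonneg _ _) (ind_nonneg _ _)
    have hdd : dF b r1 R1 ⊆ D := (dF_mono (by omega) (by omega)).trans hfl.fls.dF
    have hT : ∀ c, Pr Q D η ({ω | Y1 c b r1 R1 ω} ∩ F3 c b r1 R1) ≤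
        C1 * C * (2 * M ^ 4) ^ (1 + α) * ((r : ℝ) / R) ^ (1 + α) := by
      intro c
      calc Pr Q D η ({ω | Y1 c b r1 R1 ω} ∩ F3 c b r1 R1)
          ≤ pX Q c b r1 R1 * Pr Q D η {ω | Y1 c b r1 R1 ω} := three_leQ hQ a3 hdd hη
        _ ≤ (C1 * ((r1 : ℝ) / R1) ^ α) * (C * ((r1 : ℝ) / R1)) :=
            mul_le_mul (hX c b r1 R1 a3 hs.h2) (hY e c D η b r r1 R1 R hs hη hfl.fls)
              (Pr_nonneg hQ0 _) (by positivity)
        _ = C1 * C * ((r1 : ℝ) / R1) ^ (1 + α) := by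
            rw [Real.rpow_add (by positivity), Real.rpow_one]
            ring
        _ ≤ C1 * C * (2 * M ^ 4 * ((r : ℝ) / R)) ^ (1 + α) := by
            refine mul_le_mul_of_nonneg_left ?_ (by positivity)
            exact Real.rpow_le_rpow (by positivity) h2 (by linarith)
        _ = _ := by
            rw [Real.mul_rpow (by positivity) hq.le]
            ring
    calc Pr Q D η {ω | ThrS b r R ω} ≤ _ := h3
      _ ≤ _ := add_le_add (hT true) (hT false)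
      _ = 2 * (C1 * C * (2 * M ^ 4) ^ (1 + α)) * ((r : ℝ) / R) ^ (1 + α) := by ring
      _ ≤ _ := mul_le_mul_of_nonneg_right (le_max_right _ _) (by positivity)

/-- The event `Y1 ∩ F3` in an annulus in the middle of a flat annulus. -/
theorem y3_le (hQ : Kit Q) : ∃ (M : ℤ) (C α : ℝ), 1 ≤ M ∧ 0 < C ∧ 0 < α ∧
    ∀ (e c : Bool) (D : Finset (ℤ × ℤ)) (η : Cfg) (b : ℤ × ℤ) (r r1 R1 R : ℤ),
      Sc M r r1 R1 R → Good η → FlS e D η b r R →
      Pr Q D η ({ω | Y1 c b r1 R1 ω} ∩ F3 c b r1 R1) ≤ C * ((r1 : ℝ) / R1) ^ (1 + α) := by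
  have hQ0 := hQ.pos
  obtain ⟨L, hL⟩ := hQ.ratS
  have hM := rat4_of hQ hL
  obtain ⟨C, hC, hY⟩ := Y1_leQ hQ hM
  obtain ⟨α, C1, hα, hC1, hX⟩ := pX_dec' hQ
  refine ⟨L * L, C1 * C, α, hM.one, by positivity, hα, fun e c D η b r r1 R1 R hs hη hfl => ?_⟩
  obtain ⟨a1, a2, a3, a4, a5⟩ := hs.le hM.one
  have hr1p : (0 : ℝ) < r1 := by exact_mod_cast (by omega : 0 < r1)
  have hR1p : (0 : ℝ) < R1 := by exact_mod_cast (by have := hs.h2; omega : 0 < R1)
  have hdd : dF b r1 R1 ⊆ D := (dF_mono (by omega) (by omega)).trans hfl.dF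
  calc Pr Q D η ({ω | Y1 c b r1 R1 ω} ∩ F3 c b r1 R1)
      ≤ pX Q c b r1 R1 * Pr Q D η {ω | Y1 c b r1 R1 ω} := three_leQ hQ a3 hdd hη
    _ ≤ (C1 * ((r1 : ℝ) / R1) ^ α) * (C * ((r1 : ℝ) / R1)) :=
        mul_le_mul (hX c b r1 R1 a3 hs.h2) (hY e c D η b r r1 R1 R hs hη hfl)
          (Pr_nonneg hQ0 _) (by positivity)
    _ = C1 * C * ((r1 : ℝ) / R1) ^ (1 + α) := by
        rw [Real.rpow_add (by positivity), Real.rpow_one]
        ring

/-- **The same with fixed factors of the radii** (literally `H587.YF Q`). -/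
theorem yf (hQ : Kit Q) : ∃ (M : ℤ) (C α : ℝ), 1 ≤ M ∧ 0 < C ∧ 0 < α ∧
    ∀ (e c : Bool) (D : Finset (ℤ × ℤ)) (η : Cfg) (b : ℤ × ℤ) (r R : ℤ), Good η →
      FlatA e D η b r R → 1 ≤ r → 4 * M ^ 4 * r ≤ R →
      Pr Q D η ({ω | Y1 c b (M * (M * r)) (R / (M * M)) ω} ∩
        F3 c b (M * (M * r)) (R / (M * M))) ≤ C * ((r : ℝ) / R) ^ (1 + α) := by
  have hQ0 := hQ.pos
  obtain ⟨M, C, α, hM, hC, hα, h⟩ := y3_le hQ
  have hM' : (1 : ℝ) ≤ M := by exact_mod_cast hM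
  refine ⟨M, C * (2 * M ^ 4) ^ (1 + α), α, hM, by positivity, hα,
    fun e c D η b r R hη hfl hr hR => ?_⟩
  obtain ⟨hs, h1, h2⟩ := scale hM hr (R := R) hR
  refine (h e c D η b r _ _ R hs hη hfl.fls).trans ?_
  have hRp : (0 : ℝ) < R := by
    have : 0 < R := by
      have : 0 < 4 * M ^ 4 * r := by positivity
      omega
    exact_mod_cast this
  have hr' : (1 : ℝ) ≤ r := by exact_mod_cast hr
  have hq : 0 < (r : ℝ) / R := by positivity
  calc C * (((M * (M * r) : ℤ) : ℝ) / ((R / (M * M) : ℤ) : ℝ)) ^ (1 + α)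
      ≤ C * (2 * M ^ 4 * ((r : ℝ) / R)) ^ (1 + α) := by
        refine mul_le_mul_of_nonneg_left ?_ hC.le
        refine Real.rpow_le_rpow ?_ h2 (by linarith)
        have h3 : 1 ≤ M * (M * r) := by nlinarith
        have h4 : 0 < R / (M * M) := by omega
        have h5 : (0 : ℝ) < ((M * (M * r) : ℤ) : ℝ) := by exact_mod_cast (by omega)
        have h6 : (0 : ℝ) < ((R / (M * M) : ℤ) : ℝ) := by exact_mod_cast h4
        positivity
    _ = _ := by
        rw [Real.mul_rpow (by positivity) hq.le]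
        ring

/-- **(I-2).** -/
theorem i2q (hQ : Kit Q) : I2Q Q := by
  obtain ⟨L, hL⟩ := hQ.ratS
  obtain ⟨C, hC, h⟩ := two_core hQ (rat4_of hQ hL)
  refine ⟨C, hC, fun e D η b r R G hη hfl hr hrR hG0 hG => ?_⟩
  exact lift_G hQ.pos hη hfl hG0 hG fun ω hω hfl' => h e _ ω b r R hω hfl' hr hrR

/-- **(I-3).** -/
theorem i3q (hQ : Kit Q) : I3Q Q := by
  obtain ⟨L, hL⟩ := hQ.ratS
  obtain ⟨C, α, hC, hα, h⟩ := thr_core hQ (rat4_of hQ hL)
  refine ⟨C, α, hC, hα, fun e D η b r R G hη hfl hr hrR hG0 hG => ?_⟩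
  exact lift_G hQ.pos hη hfl hG0 hG fun ω hω hfl' => h e _ ω b r R hω hfl' hr hrR

end Vale.Agent.P167.N.H192.Q
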