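import Vale.Agent.P167.N.H192.Q.RatB
import Vale.Agent.P167.H192.Q.Exp

/-! P167: nothing of `H192.Q.Exp` needs a new version except `comp2c`, which is replaced by
`N.H192.Q.rough_c` (`N.H192.Q.Rough`). -/
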